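import Vale.Agent.Lib.P047.helper64.Basic

/-!
# P047: a function of degree four on seven variables with level-one weight sum `7/4`

The function is `(1/8) * (-1 + ∑ i, (2 x_i + x_i x_{i+1} x_{i+3} - x_i x_{i+1} x_{i+2}
- x_i x_{i+1} x_{i+4} - x_i x_{i+2} x_{i+4} - x_{i+1} x_{i+4} x_{i+5} x_{i+6}))`, indices modulo `7`.
-/

namespace Vale.Agent.Lib.P047.helper64

open Finset

variable {n : ℕ}

lemma chi_mul_self (S : Finset (Fin n)) (x : Fin n → ℤˣ) : chi S x * chi S x = 1 := by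
  unfold chi
  rw [← Finset.prod_mul_distrib]
  exact Finset.prod_eq_one fun i _ => sgn_mul_self x i

/-- Orthogonality of characters, summed over the cube. -/
lemma sum_cube_chi_mul_chi (S T : Finset (Fin n)) :
    ∑ x : Fin n → ℤˣ, chi T x * chi S x = if S = T then (2 : ℝ) ^ n else 0 := by
  split_ifs with h
  · subst h
    simp_rw [chi_mul_self]
    simp [Fintype.card_units_int]
  · obtain ⟨i, hi⟩ : ∃ i, ¬ (i ∈ S ↔ i ∈ T) := by
      by_contra hcon
      push Not at hcon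
      exact h (Finset.ext hcon)
    have hinv : Function.Involutive (flip i : (Fin n → ℤˣ) → (Fin n → ℤˣ)) := flip_flip i
    have h1 : ∑ x : Fin n → ℤˣ, chi T (flip i x) * chi S (flip i x)
        = ∑ x : Fin n → ℤˣ, chi T x * chi S x :=
      Equiv.sum_comp hinv.toPerm (fun x => chi T x * chi S x)
    have h2 : ∀ x : Fin n → ℤˣ, chi T (flip i x) * chi S (flip i x) = -(chi T x * chi S x) := by
      intro x
      rw [chi_flip, chi_flip]
      by_cases hS : i ∈ S <;> by_cases hT : i ∈ T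
      · exact absurd (iff_of_true hS hT) hi
      · simp [hS, hT]
      · simp [hS, hT]
      · exact absurd (iff_of_false hS hT) hi
    simp_rw [h2] at h1
    rw [Finset.sum_neg_distrib] at h1
    linarith

lemma fourierCoeff_eq (f : (Fin n → ℤˣ) → ℝ) (S : Finset (Fin n)) :
    fourierCoeff f S = (∑ x : Fin n → ℤˣ, f x * chi S x) / 2 ^ n := rfl

lemma fourierCoeff_chi (S T : Finset (Fin n)) :
    fourierCoeff (chi T) S = if S = T then 1 else 0 := by
  rw [fourierCoeff_eq, sum_cube_chi_mul_chi]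
  split_ifs
  · field_simp
  · simp

lemma fourierCoeff_add (f g : (Fin n → ℤˣ) → ℝ) (S : Finset (Fin n)) :
    fourierCoeff (fun x => f x + g x) S = fourierCoeff f S + fourierCoeff g S := by
  simp only [fourierCoeff_eq, add_mul, Finset.sum_add_distrib, add_div]

lemma fourierCoeff_sub (f g : (Fin n → ℤˣ) → ℝ) (S : Finset (Fin n)) :
    fourierCoeff (fun x => f x - g x) S = fourierCoeff f S - fourierCoeff g S := by
  simp only [fourierCoeff_eq, sub_mul, Finset.sum_sub_distrib, sub_div]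

lemma fourierCoeff_const_mul (c : ℝ) (f : (Fin n → ℤˣ) → ℝ) (S : Finset (Fin n)) :
    fourierCoeff (fun x => c * f x) S = c * fourierCoeff f S := by
  simp only [fourierCoeff_eq, mul_assoc, ← Finset.mul_sum, mul_div_assoc]

lemma fourierCoeff_sum {ι : Type*} (s : Finset ι) (f : ι → (Fin n → ℤˣ) → ℝ)
    (S : Finset (Fin n)) :
    fourierCoeff (fun x => ∑ i ∈ s, f i x) S = ∑ i ∈ s, fourierCoeff (f i) S := by
  simp only [fourierCoeff_eq, Finset.sum_mul, ← Finset.sum_div]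
  rw [Finset.sum_comm]

lemma chi_triple (a b c : Fin n) (hab : a ≠ b) (hac : a ≠ c) (hbc : b ≠ c) (x : Fin n → ℤˣ) :
    chi {a, b, c} x = sgn x a * sgn x b * sgn x c := by
  unfold chi
  rw [Finset.prod_insert (by simp [hab, hac]), Finset.prod_insert (by simp [hbc]),
    Finset.prod_singleton, mul_assoc]

lemma chi_quad (a b c d : Fin n) (hab : a ≠ b) (hac : a ≠ c) (had : a ≠ d) (hbc : b ≠ c)
    (hbd : b ≠ d) (hcd : c ≠ d) (x : Fin n → ℤˣ) :
    chi {a, b, c, d} x = sgn x a * sgn x b * sgn x c * sgn x d := by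
  unfold chi
  rw [Finset.prod_insert (by simp [hab, hac, had]), Finset.prod_insert (by simp [hbc, hbd]),
    Finset.prod_insert (by simp [hcd]), Finset.prod_singleton]
  ring

/-- The integer polynomial `8 f`. -/
def polyZ (v : Fin 7 → ℤ) : ℤ :=
  -1 + ∑ i : Fin 7, (2 * v i + v i * v (i + 1) * v (i + 3) - v i * v (i + 1) * v (i + 2)
    - v i * v (i + 1) * v (i + 4) - v i * v (i + 2) * v (i + 4)
    - v (i + 1) * v (i + 4) * v (i + 5) * v (i + 6))

/-- The sign attached to a truth value. -/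
def sB (b : Bool) : ℤ := if b then -1 else 1

theorem polyZ_bool : ∀ b0 b1 b2 b3 b4 b5 b6 : Bool,
    polyZ ![sB b0, sB b1, sB b2, sB b3, sB b4, sB b5, sB b6] = 8 ∨
    polyZ ![sB b0, sB b1, sB b2, sB b3, sB b4, sB b5, sB b6] = -8 := by
  decide +kernel

theorem polyZ_sign (v : Fin 7 → ℤ) (hv : ∀ i, v i = 1 ∨ v i = -1) :
    polyZ v = 8 ∨ polyZ v = -8 := by
  have hb : ∀ i, v i = sB (decide (v i = -1)) := by
    intro i
    rcases hv i with h | h <;> simp [sB, h]
  have hvec : v = ![sB (decide (v 0 = -1)), sB (decide (v 1 = -1)), sB (decide (v 2 = -1)),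
      sB (decide (v 3 = -1)), sB (decide (v 4 = -1)), sB (decide (v 5 = -1)),
      sB (decide (v 6 = -1))] := by
    funext i
    fin_cases i
    · exact hb 0
    · exact hb 1
    · exact hb 2
    · exact hb 3
    · exact hb 4
    · exact hb 5
    · exact hb 6
  rw [hvec]
  exact polyZ_bool _ _ _ _ _ _ _

/-- The example function on seven variables. -/
noncomputable def ex7 (x : Fin 7 → ℤˣ) : ℝ :=
  (1 / 8 : ℝ) * ((-1 : ℝ) * chi ∅ x + ∑ i : Fin 7, ((2 : ℝ) * chi {i} x + chi {i, i + 1, i + 3} x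
    - chi {i, i + 1, i + 2} x - chi {i, i + 1, i + 4} x - chi {i, i + 2, i + 4} x
    - chi {i + 1, i + 4, i + 5, i + 6} x))

lemma ex7_eq_polyZ (x : Fin 7 → ℤˣ) :
    ex7 x = ((polyZ (fun i => (x i : ℤ)) : ℤ) : ℝ) / 8 := by
  have h3 : ∀ (a b c : Fin 7), a ≠ b → a ≠ c → b ≠ c →
      chi {a, b, c} x = (((x a : ℤ) * (x b : ℤ) * (x c : ℤ) : ℤ) : ℝ) := by
    intro a b c hab hac hbc
    rw [chi_triple a b c hab hac hbc]
    unfold sgn
    push_cast
    ring
  have h4 : ∀ (a b c d : Fin 7), a ≠ b → a ≠ c → a ≠ d → b ≠ c → b ≠ d → c ≠ d →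
      chi {a, b, c, d} x = (((x a : ℤ) * (x b : ℤ) * (x c : ℤ) * (x d : ℤ) : ℤ) : ℝ) := by
    intro a b c d hab hac had hbc hbd hcd
    rw [chi_quad a b c d hab hac had hbc hbd hcd]
    unfold sgn
    push_cast
    ring
  have h1 : ∀ a : Fin 7, chi {a} x = (((x a : ℤ) : ℤ) : ℝ) := by
    intro a
    simp [chi, sgn]
  have h0 : chi (∅ : Finset (Fin 7)) x = 1 := by simp [chi]
  have d1 : ∀ i : Fin 7, i ≠ i + 1 ∧ i ≠ i + 2 ∧ i ≠ i + 3 ∧ i ≠ i + 4 ∧ i + 1 ≠ i + 2
      ∧ i + 1 ≠ i + 3 ∧ i + 1 ≠ i + 4 ∧ i + 2 ≠ i + 4 ∧ i + 1 ≠ i + 5 ∧ i + 1 ≠ i + 6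
      ∧ i + 4 ≠ i + 5 ∧ i + 4 ≠ i + 6 ∧ i + 5 ≠ i + 6 := by decide
  unfold ex7 polyZ
  rw [h0]
  have hterm : ∀ i : Fin 7, ((2 : ℝ) * chi {i} x + chi {i, i + 1, i + 3} x
      - chi {i, i + 1, i + 2} x - chi {i, i + 1, i + 4} x - chi {i, i + 2, i + 4} x
      - chi {i + 1, i + 4, i + 5, i + 6} x)
      = (((2 * (x i : ℤ) + (x i : ℤ) * (x (i + 1) : ℤ) * (x (i + 3) : ℤ)
          - (x i : ℤ) * (x (i + 1) : ℤ) * (x (i + 2) : ℤ)
          - (x i : ℤ) * (x (i + 1) : ℤ) * (x (i + 4) : ℤ)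
          - (x i : ℤ) * (x (i + 2) : ℤ) * (x (i + 4) : ℤ)
          - (x (i + 1) : ℤ) * (x (i + 4) : ℤ) * (x (i + 5) : ℤ) * (x (i + 6) : ℤ) : ℤ)) : ℝ) := by
    intro i
    obtain ⟨e1, e2, e3, e4, e5, e6, e7, e8, e9, e10, e11, e12, e13⟩ := d1 i
    rw [h1, h3 i (i + 1) (i + 3) e1 e3 e6, h3 i (i + 1) (i + 2) e1 e2 e5,
      h3 i (i + 1) (i + 4) e1 e4 e7, h3 i (i + 2) (i + 4) e2 e4 e8,
      h4 (i + 1) (i + 4) (i + 5) (i + 6) e7 e9 e10 e11 e12 e13]
    push_cast
    ring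
  simp_rw [hterm]
  push_cast
  ring

lemma ex7_boolean (x : Fin 7 → ℤˣ) : ex7 x = 1 ∨ ex7 x = -1 := by
  rw [ex7_eq_polyZ]
  have hv : ∀ i, ((x i : ℤ)) = 1 ∨ ((x i : ℤ)) = -1 := by
    intro i
    rcases Int.units_eq_one_or (x i) with h | h <;> simp [h]
  rcases polyZ_sign (fun i => (x i : ℤ)) hv with h | h
  · left
    rw [h]
    norm_num
  · right
    rw [h]
    norm_num

lemma fourierCoeff_ex7 (S : Finset (Fin 7)) :
    fourierCoeff ex7 S = (1 / 8 : ℝ) * ((-1 : ℝ) * (if S = ∅ then 1 else 0)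
      + ∑ i : Fin 7, ((2 : ℝ) * (if S = {i} then 1 else 0)
        + (if S = {i, i + 1, i + 3} then 1 else 0)
        - (if S = {i, i + 1, i + 2} then 1 else 0) - (if S = {i, i + 1, i + 4} then 1 else 0)
        - (if S = {i, i + 2, i + 4} then 1 else 0)
        - (if S = {i + 1, i + 4, i + 5, i + 6} then 1 else 0))) := by
  unfold ex7
  rw [fourierCoeff_const_mul, fourierCoeff_add, fourierCoeff_const_mul, fourierCoeff_chi,
    fourierCoeff_sum]
  congr 2
  refine Finset.sum_congr rfl fun i _ => ?_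
  rw [fourierCoeff_sub, fourierCoeff_sub, fourierCoeff_sub, fourierCoeff_sub, fourierCoeff_add,
    fourierCoeff_const_mul, fourierCoeff_chi, fourierCoeff_chi, fourierCoeff_chi,
    fourierCoeff_chi, fourierCoeff_chi, fourierCoeff_chi]

lemma ex7_degree (S : Finset (Fin 7)) (hS : 4 < S.card) : fourierCoeff ex7 S = 0 := by
  rw [fourierCoeff_ex7]
  have h0 : S ≠ ∅ := by
    rintro rfl
    simp at hS
  have h1 : ∀ i : Fin 7, S ≠ {i} := by
    rintro i rfl
    simp at hS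
  have h3 : ∀ a b c : Fin 7, S ≠ {a, b, c} := by
    rintro a b c rfl
    have := Finset.card_le_three (a := a) (b := b) (c := c)
    omega
  have h4 : ∀ a b c d : Fin 7, S ≠ {a, b, c, d} := by
    rintro a b c d rfl
    have := Finset.card_le_four (a := a) (b := b) (c := c) (d := d)
    omega
  simp [h0, h1, h3, h4]

lemma ex7_level_one (j : Fin 7) : fourierCoeff ex7 {j} = 1 / 4 := by
  rw [fourierCoeff_ex7]
  have c3 : ∀ i : Fin 7, ({i, i + 1, i + 3} : Finset (Fin 7)).card = 3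
      ∧ ({i, i + 1, i + 2} : Finset (Fin 7)).card = 3
      ∧ ({i, i + 1, i + 4} : Finset (Fin 7)).card = 3
      ∧ ({i, i + 2, i + 4} : Finset (Fin 7)).card = 3
      ∧ ({i + 1, i + 4, i + 5, i + 6} : Finset (Fin 7)).card = 4 := by decide
  have hne : ∀ (T : Finset (Fin 7)), T.card ≠ 1 → ({j} : Finset (Fin 7)) ≠ T := by
    rintro T hT rfl
    simp at hT
  have h0 : ({j} : Finset (Fin 7)) ≠ ∅ := by simp
  have hterm : ∀ i : Fin 7, ((2 : ℝ) * (if ({j} : Finset (Fin 7)) = {i} then 1 else 0)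
        + (if ({j} : Finset (Fin 7)) = {i, i + 1, i + 3} then 1 else 0)
        - (if ({j} : Finset (Fin 7)) = {i, i + 1, i + 2} then 1 else 0)
        - (if ({j} : Finset (Fin 7)) = {i, i + 1, i + 4} then 1 else 0)
        - (if ({j} : Finset (Fin 7)) = {i, i + 2, i + 4} then 1 else 0)
        - (if ({j} : Finset (Fin 7)) = {i + 1, i + 4, i + 5, i + 6} then 1 else 0))
      = if i = j then 2 else 0 := by
    intro i
    obtain ⟨e1, e2, e3, e4, e5⟩ := c3 i
    have n1 := hne {i, i + 1, i + 3} (by omega)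
    have n2 := hne {i, i + 1, i + 2} (by omega)
    have n3 := hne {i, i + 1, i + 4} (by omega)
    have n4 := hne {i, i + 2, i + 4} (by omega)
    have n5 := hne {i + 1, i + 4, i + 5, i + 6} (by omega)
    rw [if_neg n1, if_neg n2, if_neg n3, if_neg n4, if_neg n5]
    by_cases hij : i = j
    · subst hij
      simp
    · have hji : ({j} : Finset (Fin 7)) ≠ {i} := by
        intro h
        exact hij (Finset.singleton_injective h).symm
      rw [if_neg hji, if_neg hij]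
      ring
  simp_rw [hterm]
  rw [if_neg h0, Finset.sum_ite_eq' Finset.univ j]
  simp
  norm_num

end Vale.Agent.Lib.P047.helper64
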