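import Vale.Agent.Lib.P047.helper64.Main

/-!
# P047: the bound `7/4` needs only that the odd part has degree at most three

If all Fourier coefficients of `f` on sets of odd size at least five vanish (coefficients on sets of
even size are unrestricted), the neighbour-sum identity still holds, and so does the bound.
-/

namespace Vale.Agent.Lib.P047.helper64

open Finset

variable {n : ℕ}

/-- The neighbour-sum identity under the weaker hypothesis on odd sets only. -/
lemma sum_oddPart_flip_of_odd (f : (Fin n → ℤˣ) → ℝ)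
    (hodd : ∀ S : Finset (Fin n), 4 < S.card → Odd S.card → fourierCoeff f S = 0)
    (x : Fin n → ℤˣ) :
    ∑ j, oddPart f (flip j x) = 4 * lin f x + ((n : ℝ) - 6) * oddPart f x := by
  simp_rw [oddPart_expansion]
  rw [Finset.sum_comm]
  simp_rw [← Finset.mul_sum, sum_chi_flip]
  rw [lin_eq_sum_card_one, Finset.mul_sum, Finset.mul_sum, ← Finset.sum_add_distrib]
  refine Finset.sum_congr rfl fun S _ => ?_
  by_cases h4 : 4 < S.card
  · by_cases hpar : Odd S.card
    · rw [hodd S h4 hpar]
      simp [show S.card ≠ 1 by omega]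
    · have heven : Even S.card := Nat.not_odd_iff_even.mp hpar
      simp [heven.neg_one_pow, show S.card ≠ 1 by omega]
  · have hc : S.card = 0 ∨ S.card = 1 ∨ S.card = 2 ∨ S.card = 3 ∨ S.card = 4 := by omega
    rcases hc with h | h | h | h | h <;> simp [h] <;> ring

lemma nbr_cast_of_odd (f : (Fin n → ℤˣ) → ℝ) (hf : ∀ x, f x = 1 ∨ f x = -1)
    (hodd : ∀ S : Finset (Fin n), 4 < S.card → Odd S.card → fourierCoeff f S = 0)
    (x : Fin n → ℤˣ) :
    ((nbr (oddInt f) x : ℤ) : ℝ) = 4 * lin f x := by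
  unfold nbr
  push_cast
  simp_rw [oddInt_cast f hf]
  rw [sum_oddPart_flip_of_odd f hodd x]
  ring

/-- A `±1` valued function on the cube all of whose Fourier coefficients on sets of odd size at
least five vanish has sum of absolute level-one coefficients at most `7/4`. -/
theorem odd_cubic_bound (f : (Fin n → ℤˣ) → ℝ) (hf : ∀ x, f x = 1 ∨ f x = -1)
    (hodd : ∀ S : Finset (Fin n), 4 < S.card → Odd S.card → fourierCoeff f S = 0) :
    ∑ i, |fourierCoeff f {i}| ≤ 7 / 4 := by
  have hcast : ∀ x, ((nbr (oddInt f) x : ℤ) : ℝ) = 4 * lin f x := nbr_cast_of_odd f hf hodd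
  obtain ⟨b, hbdef⟩ : ∃ b : Fin n → ℤ,
      ∀ i, b i = nbr (oddInt f) (maxPt f) - nbr (oddInt f) (flip i (maxPt f)) := ⟨_, fun _ => rfl⟩
  have hbcast : ∀ i, ((b i : ℤ) : ℝ) = 8 * |fourierCoeff f {i}| := by
    intro i
    rw [hbdef]
    push_cast
    rw [hcast, hcast, lin_flip, coeff_mul_sgn_maxPt]
    ring
  have hb : ∀ i, 0 ≤ b i := by
    intro i
    have h : (0 : ℝ) ≤ ((b i : ℤ) : ℝ) := by
      rw [hbcast]
      positivity
    exact_mod_cast h
  have h1 : ∀ i, nbr (oddInt f) (flip i (maxPt f)) = nbr (oddInt f) (maxPt f) - b i := by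
    intro i
    rw [hbdef]
    ring
  have h2 : ∀ i j, i ≠ j → nbr (oddInt f) (flip j (flip i (maxPt f)))
      = nbr (oddInt f) (maxPt f) - b i - b j := by
    intro i j hij
    have h : ((nbr (oddInt f) (flip j (flip i (maxPt f))) : ℤ) : ℝ)
        = ((nbr (oddInt f) (maxPt f) - b i - b j : ℤ) : ℝ) := by
      push_cast
      rw [hcast, hbcast, hbcast, hcast, lin_flip, lin_flip, sgn_flip, if_neg (Ne.symm hij),
        coeff_mul_sgn_maxPt, coeff_mul_sgn_maxPt]
      ring
    exact_mod_cast h
  have hsum : ∑ i, b i = 2 * nbr (oddInt f) (maxPt f) := by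
    have h : ((∑ i, b i : ℤ) : ℝ) = ((2 * nbr (oddInt f) (maxPt f) : ℤ) : ℝ) := by
      push_cast
      simp_rw [hbcast]
      rw [hcast, lin_maxPt, ← Finset.mul_sum]
      ring
    exact_mod_cast h
  have hw7 := comb_bound (oddInt f) (oddInt_values f) (maxPt f) _ b hb rfl h1 h2 hsum
  have h7 : ((nbr (oddInt f) (maxPt f) : ℤ) : ℝ) ≤ 7 := by exact_mod_cast hw7
  rw [hcast, lin_maxPt] at h7
  linarith

end Vale.Agent.Lib.P047.helper64
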