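import Vale.Agent.Lib.P047.helper64.Defs

/-!
# P047: basic Fourier analysis on the cube `{-1,1}^n`

Characters, flips of one coordinate, orthogonality and the inversion formula.
-/

namespace Vale.Agent.Lib.P047.helper64

open Finset

variable {n : ℕ}

/-- The sign of coordinate `i` of `x`, as a real number. -/
def sgn (x : Fin n → ℤˣ) (i : Fin n) : ℝ := ((x i : ℤ) : ℝ)

/-- The character of the set `S`. -/
def chi (S : Finset (Fin n)) (x : Fin n → ℤˣ) : ℝ := ∏ i ∈ S, sgn x i

/-- Flip coordinate `i` of `x`. -/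
def flip (i : Fin n) (x : Fin n → ℤˣ) : Fin n → ℤˣ := Function.update x i (-(x i))

lemma sgn_eq (x : Fin n → ℤˣ) (i : Fin n) : sgn x i = 1 ∨ sgn x i = -1 := by
  unfold sgn
  rcases Int.units_eq_one_or (x i) with h | h <;> simp [h]

lemma sgn_mul_self (x : Fin n → ℤˣ) (i : Fin n) : sgn x i * sgn x i = 1 := by
  rcases sgn_eq x i with h | h <;> simp [h]

lemma sgn_neg (x : Fin n → ℤˣ) (i : Fin n) : sgn (-x) i = -sgn x i := by
  simp [sgn]

lemma flip_apply (i k : Fin n) (x : Fin n → ℤˣ) :
    flip i x k = if k = i then -(x i) else x k := by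
  unfold flip
  rw [Function.update_apply]

lemma flip_flip (i : Fin n) (x : Fin n → ℤˣ) : flip i (flip i x) = x := by
  funext k
  rw [flip_apply, flip_apply]
  by_cases h : k = i
  · simp [h]
  · simp [h, flip_apply]

lemma sgn_flip (i k : Fin n) (x : Fin n → ℤˣ) :
    sgn (flip i x) k = if k = i then -sgn x i else sgn x k := by
  unfold sgn
  rw [flip_apply]
  split_ifs <;> simp

lemma chi_neg (S : Finset (Fin n)) (x : Fin n → ℤˣ) :
    chi S (-x) = (-1) ^ S.card * chi S x := by
  unfold chi
  simp_rw [sgn_neg]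
  rw [← Finset.prod_const, ← Finset.prod_mul_distrib]
  refine Finset.prod_congr rfl fun i _ => ?_
  ring

lemma chi_flip (S : Finset (Fin n)) (i : Fin n) (x : Fin n → ℤˣ) :
    chi S (flip i x) = if i ∈ S then -chi S x else chi S x := by
  unfold chi
  split_ifs with h
  · rw [← Finset.mul_prod_erase S _ h, ← Finset.mul_prod_erase S (fun k => sgn x k) h]
    rw [sgn_flip, if_pos rfl, neg_mul]
    congr 2
    refine Finset.prod_congr rfl fun k hk => ?_
    rw [sgn_flip, if_neg (Finset.ne_of_mem_erase hk)]
  · refine Finset.prod_congr rfl fun k hk => ?_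
    rw [sgn_flip, if_neg]
    rintro rfl
    exact h hk

/-- Summing a character over all single flips. -/
lemma sum_chi_flip (S : Finset (Fin n)) (x : Fin n → ℤˣ) :
    ∑ j, chi S (flip j x) = ((n : ℝ) - 2 * S.card) * chi S x := by
  have h1 : ∀ j, chi S (flip j x) = chi S x - (if j ∈ S then 2 * chi S x else 0) := by
    intro j
    rw [chi_flip]
    split_ifs <;> ring
  simp_rw [h1]
  rw [Finset.sum_sub_distrib, Finset.sum_const, Finset.card_univ, Fintype.card_fin,
    Finset.sum_ite_mem, Finset.univ_inter, Finset.sum_const]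
  simp only [nsmul_eq_mul]
  ring

/-- Orthogonality of characters, summed over the sets. -/
lemma sum_chi_mul_chi (x y : Fin n → ℤˣ) :
    ∑ S : Finset (Fin n), chi S x * chi S y = if x = y then (2 : ℝ) ^ n else 0 := by
  have h1 : ∀ S : Finset (Fin n), chi S x * chi S y = ∏ i ∈ S, (sgn x i * sgn y i) := by
    intro S
    unfold chi
    rw [Finset.prod_mul_distrib]
  simp_rw [h1]
  have h2 := Finset.prod_one_add (f := fun i => sgn x i * sgn y i) (Finset.univ : Finset (Fin n))
  rw [Finset.powerset_univ] at h2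
  rw [← h2]
  split_ifs with h
  · subst h
    simp_rw [sgn_mul_self]
    rw [Finset.prod_const, Finset.card_univ, Fintype.card_fin]
    norm_num
  · obtain ⟨i, hi⟩ : ∃ i, x i ≠ y i := by
      by_contra hcon
      push Not at hcon
      exact h (funext hcon)
    refine Finset.prod_eq_zero (Finset.mem_univ i) ?_
    unfold sgn
    rcases Int.units_eq_one_or (x i) with hx | hx <;>
      rcases Int.units_eq_one_or (y i) with hy | hy <;> simp_all

/-- Fourier inversion. -/
lemma fourier_inversion (f : (Fin n → ℤˣ) → ℝ) (x : Fin n → ℤˣ) :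
    f x = ∑ S : Finset (Fin n), fourierCoeff f S * chi S x := by
  have h1 : ∀ S : Finset (Fin n), fourierCoeff f S * chi S x
      = ∑ y : Fin n → ℤˣ, f y * (chi S y * chi S x) / 2 ^ n := by
    intro S
    unfold fourierCoeff
    rw [Finset.sum_div, Finset.sum_mul]
    refine Finset.sum_congr rfl fun y _ => ?_
    unfold chi sgn
    ring
  simp_rw [h1]
  rw [Finset.sum_comm]
  have h2 : ∀ y : Fin n → ℤˣ, ∑ S : Finset (Fin n), f y * (chi S y * chi S x) / 2 ^ n
      = if y = x then f y else 0 := by
    intro y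
    rw [← Finset.sum_div, ← Finset.mul_sum, sum_chi_mul_chi]
    split_ifs with h
    · field_simp
    · simp
  simp_rw [h2]
  simp

end Vale.Agent.Lib.P047.helper64
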