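import Vale.Agent.Lib.P047.helper64.Basic

/-!
# P047: the counting argument

An integer valued function `G` on the cube with values in `{-1,0,1}`, the neighbour functional
`nbr G x = (sum of G over the neighbours of x) - (n - 6) * G x`, a base point `x0`, and nonnegative
integers `b i` recording how `nbr G` drops when coordinates of `x0` are flipped.
-/

namespace Vale.Agent.Lib.P047.helper64

open Finset

variable {n : ℕ}

/-- The neighbour functional. -/
def nbr (G : (Fin n → ℤˣ) → ℤ) (x : Fin n → ℤˣ) : ℤ :=
  ∑ j, G (flip j x) - ((n : ℤ) - 6) * G x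

lemma sum_ite_const (p : Fin n → Prop) [DecidablePred p] (a : ℤ) :
    ∑ i, (if p i then a else 0) = ((univ.filter p).card : ℤ) * a := by
  rw [← Finset.sum_filter, Finset.sum_const, nsmul_eq_mul]

lemma sum_le_card_one (c : Fin n → ℤ) (hc : ∀ i, c i ≤ 1) :
    ∑ i, c i ≤ ((univ.filter fun i => c i = 1).card : ℤ) := by
  have h := sum_ite_const (fun i => c i = 1) 1
  rw [mul_one] at h
  rw [← h]
  refine Finset.sum_le_sum fun i _ => ?_
  split_ifs with hi
  · exact hc i
  · have := hc i
    omega

lemma nbr_le_six (G : (Fin n → ℤˣ) → ℤ) (hG : ∀ x, G x ≤ 1) (y : Fin n → ℤˣ) (hy : G y = 1) :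
    nbr G y ≤ 6 := by
  unfold nbr
  rw [hy]
  have h2 : ∑ j, G (flip j y) ≤ ∑ _j : Fin n, (1 : ℤ) := Finset.sum_le_sum fun j _ => hG _
  rw [Finset.sum_const, Finset.card_univ, Fintype.card_fin] at h2
  simp only [nsmul_eq_mul, mul_one] at h2
  linarith

lemma nbr_le_of_eq_one (G : (Fin n → ℤˣ) → ℤ) (hG : ∀ x, G x ≤ 1) (y : Fin n → ℤˣ)
    (hy : G y = 1) (k : Fin n) : nbr G y ≤ 5 + G (flip k y) := by
  unfold nbr
  rw [hy]
  have h1 : G (flip k y) + ∑ j ∈ univ.erase k, G (flip j y) = ∑ j, G (flip j y) :=
    Finset.add_sum_erase univ (fun j => G (flip j y)) (mem_univ k)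
  have h2 : ∑ j ∈ univ.erase k, G (flip j y) ≤ ∑ _j ∈ univ.erase k, (1 : ℤ) :=
    Finset.sum_le_sum fun j _ => hG _
  rw [Finset.sum_const, Finset.card_erase_of_mem (mem_univ k), Finset.card_univ,
    Fintype.card_fin] at h2
  simp only [nsmul_eq_mul, mul_one] at h2
  have hn : 0 < n := Fin.pos k
  have h3 : ((n - 1 : ℕ) : ℤ) = (n : ℤ) - 1 := by omega
  rw [h3] at h2
  linarith

/-- The counting argument. -/
theorem comb_bound (G : (Fin n → ℤˣ) → ℤ) (hG : ∀ x, G x = 1 ∨ G x = 0 ∨ G x = -1)
    (x0 : Fin n → ℤˣ) (w : ℤ) (b : Fin n → ℤ) (hb : ∀ i, 0 ≤ b i)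
    (h0 : nbr G x0 = w) (h1 : ∀ i, nbr G (flip i x0) = w - b i)
    (h2 : ∀ i j, i ≠ j → nbr G (flip j (flip i x0)) = w - b i - b j)
    (hsum : ∑ i, b i = 2 * w) : w ≤ 7 := by
  by_contra hw
  push Not at hw
  have hG1 : ∀ x, G x ≤ 1 := fun x => by rcases hG x with h | h | h <;> omega
  rcases hG x0 with hz | hz | hz
  · -- the base point has value `1`
    have := nbr_le_six G hG1 x0 hz
    omega
  · -- the base point has value `0`
    have hsumc : ∑ j, G (flip j x0) = w := by
      have := h0
      unfold nbr at this
      rw [hz] at this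
      simpa using this
    have hP : w ≤ ((univ.filter fun j => G (flip j x0) = 1).card : ℤ) := by
      rw [← hsumc]
      exact sum_le_card_one (fun j => G (flip j x0)) (fun j => hG1 _)
    have hbj : ∀ j, (if G (flip j x0) = 1 then w - 5 else 0) ≤ b j := by
      intro j
      split_ifs with hj
      · have := nbr_le_of_eq_one G hG1 (flip j x0) hj j
        rw [flip_flip, hz, h1 j] at this
        omega
      · exact hb j
    have hs := Finset.sum_le_sum (fun j (_ : j ∈ univ) => hbj j)
    rw [hsum, sum_ite_const] at hs
    nlinarith
  · -- the base point has value `-1`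
    have hsumc : ∑ j, G (flip j x0) = w - n + 6 := by
      have := h0
      unfold nbr at this
      rw [hz] at this
      linarith
    have hpt : ∀ j, G (flip j x0)
        = 2 * (if G (flip j x0) = 1 then 1 else 0) + (if G (flip j x0) = 0 then 1 else 0) - 1 := by
      intro j
      rcases hG (flip j x0) with h | h | h <;> simp [h]
    have hB : ∑ j, G (flip j x0)
        = 2 * ((univ.filter fun j => G (flip j x0) = 1).card : ℤ)
          + ((univ.filter fun j => G (flip j x0) = 0).card : ℤ) - n := by
      have e1 := sum_ite_const (fun j => G (flip j x0) = 1) 1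
      have e0 := sum_ite_const (fun j => G (flip j x0) = 0) 1
      rw [mul_one] at e1 e0
      rw [← e1, ← e0, Finset.mul_sum, ← Finset.sum_add_distrib]
      have hn : (n : ℤ) = ∑ _j : Fin n, (1 : ℤ) := by simp
      rw [hn, ← Finset.sum_sub_distrib]
      exact Finset.sum_congr rfl fun j _ => hpt j
    -- coordinates whose flip has value `1`
    have hPb : ∀ j, G (flip j x0) = 1 → w - 4 ≤ b j := by
      intro j hj
      have := nbr_le_of_eq_one G hG1 (flip j x0) hj j
      rw [flip_flip, hz, h1 j] at this
      omega
    -- coordinates whose flip has value `0`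
    have hRb : ∀ i, G (flip i x0) = 0 → 2 ≤ b i := by
      intro i hi
      by_contra hbi
      push Not at hbi
      have hci : G (flip i (flip i x0)) = -1 := by rw [flip_flip, hz]
      have hsumc' : ∑ j, G (flip j (flip i x0)) = w - b i := by
        have := h1 i
        unfold nbr at this
        rw [hi] at this
        simpa using this
      have hP' : w - b i + 1 ≤ ((univ.filter fun j => G (flip j (flip i x0)) = 1).card : ℤ) := by
        have e1 := sum_ite_const (fun j => G (flip j (flip i x0)) = 1) 1
        rw [mul_one] at e1
        have hle : ∑ j, G (flip j (flip i x0))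
            ≤ ∑ j, ((if G (flip j (flip i x0)) = 1 then (1 : ℤ) else 0)
                - (if j = i then 1 else 0)) := by
          refine Finset.sum_le_sum fun j _ => ?_
          by_cases hji : j = i
          · subst hji
            simp [hci]
          · have := hG1 (flip j (flip i x0))
            simp only [hji, if_false, sub_zero]
            split_ifs with h
            · exact this
            · omega
        rw [Finset.sum_sub_distrib, e1, Finset.sum_ite_eq' Finset.univ i] at hle
        simp only [mem_univ, if_true] at hle
        linarith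
      have hb' : ∀ j, (if G (flip j (flip i x0)) = 1 then w - 5 - b i else 0)
          + (if j = i then b i else 0) ≤ b j := by
        intro j
        by_cases hji : j = i
        · subst hji
          simp [hci]
        · simp only [hji, if_false, add_zero]
          split_ifs with hj
          · have := nbr_le_of_eq_one G hG1 (flip j (flip i x0)) hj j
            rw [flip_flip, hi, h2 i j (Ne.symm hji)] at this
            omega
          · exact hb j
      have hs := Finset.sum_le_sum (fun j (_ : j ∈ univ) => hb' j)
      rw [hsum, Finset.sum_add_distrib, sum_ite_const, Finset.sum_ite_eq' Finset.univ i] at hs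
      simp only [mem_univ, if_true] at hs
      have hbi0 := hb i
      have hcases : b i = 0 ∨ b i = 1 := by omega
      rcases hcases with h | h
      · rw [h] at hs hP'
        nlinarith
      · rw [h] at hs hP'
        nlinarith
    have hfin : ∀ j, (if G (flip j x0) = 1 then w - 4 else 0)
        + (if G (flip j x0) = 0 then 2 else 0) ≤ b j := by
      intro j
      rcases hG (flip j x0) with h | h | h
      · simp only [h, if_true, one_ne_zero, if_false, add_zero]
        exact hPb j h
      · simp only [h, zero_ne_one, if_false, if_true, zero_add]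
        exact hRb j h
      · simp [h]
        exact hb j
    have hs := Finset.sum_le_sum (fun j (_ : j ∈ univ) => hfin j)
    rw [hsum, Finset.sum_add_distrib, sum_ite_const, sum_ite_const] at hs
    have hPnn : (0 : ℤ) ≤ ((univ.filter fun j => G (flip j x0) = 1).card : ℤ) := Int.natCast_nonneg _
    nlinarith

end Vale.Agent.Lib.P047.helper64
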