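import Mathlib

/-!
# P047: Fourier coefficients on the cube `{-1,1}^n`

The cube is modelled as `Fin n → ℤˣ` (the units of the integers are exactly `1` and `-1`).
-/

namespace Vale.Agent.Lib.P047.helper64

/-- The Fourier coefficient of `f` at the set `S`: the average over the cube `{-1,1}^n`
of `f x` times the product of the coordinates `x i` with `i ∈ S`. -/
noncomputable def fourierCoeff {n : ℕ} (f : (Fin n → ℤˣ) → ℝ) (S : Finset (Fin n)) : ℝ :=
  (∑ x : Fin n → ℤˣ, f x * ∏ i ∈ S, ((x i : ℤ) : ℝ)) / 2 ^ n

end Vale.Agent.Lib.P047.helper64
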