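import Vale.Agent.Lib.P047.helper64.Basic

/-!
# P047: the neighbour-sum identity for the odd part of a function of degree at most four
-/

namespace Vale.Agent.Lib.P047.helper64

open Finset

variable {n : ℕ}

/-- The odd part of `f`. -/
noncomputable def oddPart (f : (Fin n → ℤˣ) → ℝ) (x : Fin n → ℤˣ) : ℝ := (f x - f (-x)) / 2

/-- The level-one part of `f`. -/
noncomputable def lin (f : (Fin n → ℤˣ) → ℝ) (x : Fin n → ℤˣ) : ℝ :=
  ∑ i, fourierCoeff f {i} * sgn x i

lemma oddPart_expansion (f : (Fin n → ℤˣ) → ℝ) (x : Fin n → ℤˣ) :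
    oddPart f x
      = ∑ S : Finset (Fin n), fourierCoeff f S * ((1 - (-1) ^ S.card) / 2) * chi S x := by
  have hx := fourier_inversion f x
  have hnx := fourier_inversion f (-x)
  unfold oddPart
  rw [hx, hnx, ← Finset.sum_sub_distrib, Finset.sum_div]
  refine Finset.sum_congr rfl fun S _ => ?_
  rw [chi_neg]
  ring

lemma lin_eq_sum_card_one (f : (Fin n → ℤˣ) → ℝ) (x : Fin n → ℤˣ) :
    lin f x = ∑ S : Finset (Fin n), if S.card = 1 then fourierCoeff f S * chi S x else 0 := by
  have himg : (Finset.univ.filter fun S : Finset (Fin n) => S.card = 1)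
      = Finset.univ.image (fun i : Fin n => ({i} : Finset (Fin n))) := by
    ext S
    simp [Finset.card_eq_one, eq_comm]
  rw [← Finset.sum_filter, himg,
    Finset.sum_image (fun a _ b _ h => Finset.singleton_injective h)]
  unfold lin
  refine Finset.sum_congr rfl fun i _ => ?_
  simp [chi]

/-- The neighbour-sum identity: for `f` of degree at most four, the sum of the odd part over the
`n` neighbours of `x` equals `4` times the level-one part plus `(n - 6)` times the odd part. -/
lemma sum_oddPart_flip (f : (Fin n → ℤˣ) → ℝ)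
    (hdeg : ∀ S : Finset (Fin n), 4 < S.card → fourierCoeff f S = 0) (x : Fin n → ℤˣ) :
    ∑ j, oddPart f (flip j x) = 4 * lin f x + ((n : ℝ) - 6) * oddPart f x := by
  simp_rw [oddPart_expansion]
  rw [Finset.sum_comm]
  simp_rw [← Finset.mul_sum, sum_chi_flip]
  rw [lin_eq_sum_card_one, Finset.mul_sum, Finset.mul_sum, ← Finset.sum_add_distrib]
  refine Finset.sum_congr rfl fun S _ => ?_
  by_cases h4 : 4 < S.card
  · rw [hdeg S h4]
    simp [show S.card ≠ 1 by omega]
  · have hc : S.card = 0 ∨ S.card = 1 ∨ S.card = 2 ∨ S.card = 3 ∨ S.card = 4 := by omega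
    rcases hc with h | h | h | h | h <;> simp [h] <;> ring

/-- The level-one part after flipping one coordinate. -/
lemma lin_flip (f : (Fin n → ℤˣ) → ℝ) (i : Fin n) (x : Fin n → ℤˣ) :
    lin f (flip i x) = lin f x - 2 * (fourierCoeff f {i} * sgn x i) := by
  unfold lin
  have h1 : ∀ k, fourierCoeff f {k} * sgn (flip i x) k
      = fourierCoeff f {k} * sgn x k
        - (if k = i then 2 * (fourierCoeff f {k} * sgn x k) else 0) := by
    intro k
    rw [sgn_flip]
    split_ifs with h
    · subst h
      ring
    · ring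
  simp_rw [h1]
  rw [Finset.sum_sub_distrib, Finset.sum_ite_eq' Finset.univ i]
  simp

end Vale.Agent.Lib.P047.helper64
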