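import Vale.Agent.Lib.P047.helper64.Identity
import Vale.Agent.Lib.P047.helper64.Comb

/-!
# P047: a Boolean function of degree at most four has level-one weight sum at most `7/4`
-/

namespace Vale.Agent.Lib.P047.helper64

open Finset

variable {n : ℕ}

/-- The odd part of a `±1` valued function, as an integer. -/
noncomputable def oddInt (f : (Fin n → ℤˣ) → ℝ) (x : Fin n → ℤˣ) : ℤ :=
  if f x = 1 ∧ f (-x) = -1 then 1 else if f x = -1 ∧ f (-x) = 1 then -1 else 0

lemma oddInt_cast (f : (Fin n → ℤˣ) → ℝ) (hf : ∀ x, f x = 1 ∨ f x = -1) (x : Fin n → ℤˣ) :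
    ((oddInt f x : ℤ) : ℝ) = oddPart f x := by
  unfold oddInt oddPart
  rcases hf x with h1 | h1 <;> rcases hf (-x) with h2 | h2 <;> simp [h1, h2] <;> norm_num

lemma oddInt_values (f : (Fin n → ℤˣ) → ℝ) (x : Fin n → ℤˣ) :
    oddInt f x = 1 ∨ oddInt f x = 0 ∨ oddInt f x = -1 := by
  unfold oddInt
  split_ifs <;> simp

lemma nbr_cast (f : (Fin n → ℤˣ) → ℝ) (hf : ∀ x, f x = 1 ∨ f x = -1)
    (hdeg : ∀ S : Finset (Fin n), 4 < S.card → fourierCoeff f S = 0) (x : Fin n → ℤˣ) :
    ((nbr (oddInt f) x : ℤ) : ℝ) = 4 * lin f x := by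
  unfold nbr
  push_cast
  simp_rw [oddInt_cast f hf]
  rw [sum_oddPart_flip f hdeg x]
  ring

/-- The point of the cube whose signs agree with the signs of the level-one coefficients. -/
noncomputable def maxPt (f : (Fin n → ℤˣ) → ℝ) : Fin n → ℤˣ :=
  fun i => if fourierCoeff f {i} < 0 then -1 else 1

lemma coeff_mul_sgn_maxPt (f : (Fin n → ℤˣ) → ℝ) (i : Fin n) :
    fourierCoeff f {i} * sgn (maxPt f) i = |fourierCoeff f {i}| := by
  unfold sgn maxPt
  split_ifs with h
  · simp [abs_of_neg h]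
  · push Not at h
    simp [abs_of_nonneg h]

lemma lin_maxPt (f : (Fin n → ℤˣ) → ℝ) : lin f (maxPt f) = ∑ i, |fourierCoeff f {i}| := by
  unfold lin
  exact Finset.sum_congr rfl fun i _ => coeff_mul_sgn_maxPt f i

/-- A `±1` valued function on the cube all of whose Fourier coefficients on sets of more than
four elements vanish has sum of absolute level-one coefficients at most `7/4`. -/
theorem degree_four_bound (f : (Fin n → ℤˣ) → ℝ) (hf : ∀ x, f x = 1 ∨ f x = -1)
    (hdeg : ∀ S : Finset (Fin n), 4 < S.card → fourierCoeff f S = 0) :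
    ∑ i, |fourierCoeff f {i}| ≤ 7 / 4 := by
  have hcast : ∀ x, ((nbr (oddInt f) x : ℤ) : ℝ) = 4 * lin f x := nbr_cast f hf hdeg
  obtain ⟨b, hbdef⟩ : ∃ b : Fin n → ℤ,
      ∀ i, b i = nbr (oddInt f) (maxPt f) - nbr (oddInt f) (flip i (maxPt f)) := ⟨_, fun _ => rfl⟩
  have hbcast : ∀ i, ((b i : ℤ) : ℝ) = 8 * |fourierCoeff f {i}| := by
    intro i
    rw [hbdef]
    push_cast
    rw [hcast, hcast, lin_flip, coeff_mul_sgn_maxPt]
    ring
  have hb : ∀ i, 0 ≤ b i := by
    intro i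
    have h : (0 : ℝ) ≤ ((b i : ℤ) : ℝ) := by
      rw [hbcast]
      positivity
    exact_mod_cast h
  have h1 : ∀ i, nbr (oddInt f) (flip i (maxPt f)) = nbr (oddInt f) (maxPt f) - b i := by
    intro i
    rw [hbdef]
    ring
  have h2 : ∀ i j, i ≠ j → nbr (oddInt f) (flip j (flip i (maxPt f)))
      = nbr (oddInt f) (maxPt f) - b i - b j := by
    intro i j hij
    have h : ((nbr (oddInt f) (flip j (flip i (maxPt f))) : ℤ) : ℝ)
        = ((nbr (oddInt f) (maxPt f) - b i - b j : ℤ) : ℝ) := by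
      push_cast
      rw [hcast, hbcast, hbcast, hcast, lin_flip, lin_flip, sgn_flip, if_neg (Ne.symm hij),
        coeff_mul_sgn_maxPt, coeff_mul_sgn_maxPt]
      ring
    exact_mod_cast h
  have hsum : ∑ i, b i = 2 * nbr (oddInt f) (maxPt f) := by
    have h : ((∑ i, b i : ℤ) : ℝ) = ((2 * nbr (oddInt f) (maxPt f) : ℤ) : ℝ) := by
      push_cast
      simp_rw [hbcast]
      rw [hcast, lin_maxPt, ← Finset.mul_sum]
      ring
    exact_mod_cast h
  have hw7 := comb_bound (oddInt f) (oddInt_values f) (maxPt f) _ b hb rfl h1 h2 hsum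
  have h7 : ((nbr (oddInt f) (maxPt f) : ℤ) : ℝ) ≤ 7 := by exact_mod_cast hw7
  rw [hcast, lin_maxPt] at h7
  linarith

end Vale.Agent.Lib.P047.helper64
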