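import Vale.Agent.Lib.P047.helper64.Sharp

/-!
# P047: a one-sided square-root bound for subcube partitions

Let `F` describe a partition of the cube into subcubes and let `f` (values in `[-1,1]`) be constant
on every part.  If every part on which `f` is not `-1` fixes at most `c` coordinates (no condition
on the parts where `f = -1`), then the sum of the absolute values of the level-one Fourier
coefficients of `f` is at most `2 * √c`.

Proof: with `g = (1 + f) / 2` and `Y x` the signed sum of the fixed coordinates of the part of `x`,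
the level-one sum is `2 E[g Y]`; for the product measure with bias `t = 1/√c` in the direction of
the signs, the Wald identity gives `E[∏_{i ∈ F x} (1 ± t)] = 1`, and `Y ≤ √c ∏ (1 ± t)` on every
part of width at most `c`.
-/

namespace Vale.Agent.Lib.P047.helper64

open Finset

variable {n : ℕ}

/-- A second-order Bernoulli inequality. -/
lemma one_add_pow_ge_quad (t : ℝ) (ht : 0 ≤ t) (s : ℕ) :
    1 + (s : ℝ) * t + (s : ℝ) * ((s : ℝ) - 1) / 2 * t ^ 2 ≤ (1 + t) ^ s := by
  induction s with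
  | zero => simp
  | succ s ih =>
    have hp : (1 + t) ^ (s + 1) = (1 + t) ^ s * (1 + t) := pow_succ _ _
    have h1 : 0 ≤ (s : ℝ) := Nat.cast_nonneg s
    have h2 : (1 + (s : ℝ) * t + (s : ℝ) * ((s : ℝ) - 1) / 2 * t ^ 2) * (1 + t)
        ≤ (1 + t) ^ s * (1 + t) := mul_le_mul_of_nonneg_right ih (by linarith)
    have h5 : 0 ≤ (s : ℝ) * ((s : ℝ) - 1) := by
      rcases Nat.eq_zero_or_pos s with h | h
      · simp [h]
      · have h6 : (1 : ℝ) ≤ s := by exact_mod_cast h
        exact mul_nonneg h1 (by linarith)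
    have h4 : 0 ≤ (s : ℝ) * ((s : ℝ) - 1) / 2 * t ^ 3 := by positivity
    have h3 : (1 + (s : ℝ) * t + (s : ℝ) * ((s : ℝ) - 1) / 2 * t ^ 2) * (1 + t)
        - (1 + ((s : ℝ) + 1) * t + ((s : ℝ) + 1) * ((s : ℝ) + 1 - 1) / 2 * t ^ 2)
        = (s : ℝ) * ((s : ℝ) - 1) / 2 * t ^ 3 := by ring
    rw [hp]
    push_cast
    linarith

/-- The scalar inequality behind the one-sided bound. -/
lemma one_sided_core (r t c : ℝ) (hr : 1 ≤ r) (hrr : r * r = c) (htr : t * r = 1)
    (m s : ℕ) (hsc : 2 * (m : ℝ) + s ≤ c) :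
    (s : ℝ) ≤ r * ((1 - t ^ 2) ^ m * (1 + t) ^ s) := by
  have hr0 : 0 < r := by linarith
  have ht0 : 0 < t := by
    by_contra h
    push Not at h
    nlinarith
  have ht1 : t ≤ 1 := by nlinarith
  have hm0 : 0 ≤ (m : ℝ) := Nat.cast_nonneg m
  have hs0 : 0 ≤ (s : ℝ) := Nat.cast_nonneg s
  have htc : t ^ 2 * c = 1 := by
    rw [← hrr]
    have : t ^ 2 * (r * r) = (t * r) ^ 2 := by ring
    rw [this, htr]
    norm_num
  have b1 : 1 + (m : ℝ) * (-(t ^ 2)) ≤ (1 + -(t ^ 2)) ^ m :=
    one_add_mul_le_pow (by nlinarith) m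
  have b2 := one_add_pow_ge_quad t ht0.le s
  have hmt : (m : ℝ) * t ^ 2 ≤ 1 / 2 := by
    have hm : (m : ℝ) ≤ c / 2 := by linarith
    have h1 : (m : ℝ) * t ^ 2 ≤ c / 2 * t ^ 2 :=
      mul_le_mul_of_nonneg_right hm (by positivity)
    have h2 : c / 2 * t ^ 2 = 1 / 2 := by linarith
    linarith
  have b3 : (1 : ℝ) / 2 ≤ (1 - t ^ 2) ^ m := by
    have h1 : (1 + -(t ^ 2)) ^ m = (1 - t ^ 2) ^ m := by ring_nf
    rw [← h1]
    linarith
  have hsr : (s : ℝ) ≤ r * r := by rw [hrr]; linarith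
  have b4 : 2 * (s : ℝ) * t ≤ (1 + t) ^ s := by
    have key : 1 - (s : ℝ) * t + (s : ℝ) * ((s : ℝ) - 1) / 2 * t ^ 2
        = t ^ 2 / 2 * ((r - s) ^ 2 + (r * r - s)) := by
      have e1 : t ^ 2 / 2 * ((r - s) ^ 2 + (r * r - s))
          = (t * r) ^ 2 - (s : ℝ) * t * (t * r) + (s : ℝ) * ((s : ℝ) - 1) / 2 * t ^ 2 := by ring
      rw [e1, htr]
      ring
    have h0 : 0 ≤ t ^ 2 / 2 * ((r - s) ^ 2 + (r * r - s)) := by
      have : 0 ≤ (r - s) ^ 2 + (r * r - s) := by nlinarith [sq_nonneg (r - (s : ℝ))]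
      positivity
    linarith
  have h5 : (s : ℝ) = r * (1 / 2 * (2 * (s : ℝ) * t)) := by
    have : r * (1 / 2 * (2 * (s : ℝ) * t)) = (s : ℝ) * (t * r) := by ring
    rw [this, htr, mul_one]
  have h6 : 1 / 2 * (2 * (s : ℝ) * t) ≤ (1 - t ^ 2) ^ m * (1 + t) ^ s :=
    mul_le_mul b3 b4 (by positivity) (le_trans (by norm_num) b3)
  calc (s : ℝ) = r * (1 / 2 * (2 * (s : ℝ) * t)) := h5
    _ ≤ r * ((1 - t ^ 2) ^ m * (1 + t) ^ s) := mul_le_mul_of_nonneg_left h6 hr0.le

/-- The scalar inequality in the form used below: `p` fixed coordinates with signed value `+1`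
out of `q ≤ c` fixed coordinates. -/
lemma one_sided_scalar (c p q : ℕ) (hc : 0 < c) (hpq : p ≤ q) (hqc : q ≤ c) :
    2 * (p : ℝ) - q
      ≤ Real.sqrt c * ((1 + 1 / Real.sqrt c) ^ p * (1 - 1 / Real.sqrt c) ^ (q - p)) := by
  have hc1 : (1 : ℝ) ≤ c := by exact_mod_cast hc
  have hr1 : 1 ≤ Real.sqrt c := by
    rw [Real.one_le_sqrt]
    exact hc1
  have hr0 : 0 < Real.sqrt c := by linarith
  have hrr : Real.sqrt c * Real.sqrt c = c := Real.mul_self_sqrt (by linarith)
  have htr : 1 / Real.sqrt c * Real.sqrt c = 1 := by field_simp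
  have ht1 : 1 / Real.sqrt c ≤ 1 := by
    rw [div_le_one hr0]
    exact hr1
  have ht0 : 0 ≤ 1 / Real.sqrt c := by positivity
  rcases le_or_gt (2 * p) q with h | h
  · have h1 : 2 * (p : ℝ) ≤ q := by exact_mod_cast h
    have h2 : 0 ≤ Real.sqrt c * ((1 + 1 / Real.sqrt c) ^ p * (1 - 1 / Real.sqrt c) ^ (q - p)) := by
      have : 0 ≤ 1 - 1 / Real.sqrt c := by linarith
      positivity
    linarith
  · obtain ⟨s, hs⟩ : ∃ s, p = (q - p) + s := ⟨2 * p - q, by omega⟩
    have hsc : 2 * ((q - p : ℕ) : ℝ) + s ≤ c := by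
      have : 2 * (q - p) + s ≤ c := by omega
      exact_mod_cast this
    have hcore := one_sided_core (Real.sqrt c) (1 / Real.sqrt c) c hr1 hrr htr (q - p) s hsc
    have e1 : (1 + 1 / Real.sqrt c) ^ p * (1 - 1 / Real.sqrt c) ^ (q - p)
        = (1 - (1 / Real.sqrt c) ^ 2) ^ (q - p) * (1 + 1 / Real.sqrt c) ^ s := by
      have e2 : (1 + 1 / Real.sqrt c) ^ p
          = (1 + 1 / Real.sqrt c) ^ (q - p) * (1 + 1 / Real.sqrt c) ^ s := by
        rw [← pow_add]
        congr 1
      have e3 : (1 - (1 / Real.sqrt c) ^ 2) = (1 + 1 / Real.sqrt c) * (1 - 1 / Real.sqrt c) := by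
        ring
      rw [e2, e3, mul_pow]
      ring
    have e4 : 2 * (p : ℝ) - q = s := by
      have : 2 * p = q + s := by omega
      have h2 : 2 * (p : ℝ) = (q : ℝ) + s := by exact_mod_cast this
      linarith
    rw [e1, e4]
    exact hcore

/-- The product of two-valued weights over the fixed coordinates of the part of `x`. -/
lemma prod_fixed_eq (F : (Fin n → ℤˣ) → Finset (Fin n)) (e : Fin n → ℝ) (a b : ℝ)
    (x : Fin n → ℤˣ) :
    ∏ i ∈ F x, (if e i * ((x i : ℤ) : ℝ) = 1 then a else b)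
      = a ^ (plusCount F e x) * b ^ ((F x).card - plusCount F e x) := by
  rw [Finset.prod_ite, Finset.prod_const, Finset.prod_const]
  have h2 : ((F x).filter (fun i => ¬ e i * ((x i : ℤ) : ℝ) = 1)).card
      = (F x).card - plusCount F e x := by
    unfold plusCount sgn
    rw [← Finset.card_filter_add_card_filter_not (s := F x)
      (fun i => e i * ((x i : ℤ) : ℝ) = 1)]
    simp
  have h3 : ((F x).filter (fun i => e i * ((x i : ℤ) : ℝ) = 1)).card = plusCount F e x := rfl
  rw [h2, h3]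

/-- **One-sided subcube partition bound.**  Let `F` describe a partition of the cube into subcubes
and let `f`, with values in `[-1,1]`, be constant on every part.  If every part on which `f` is not
`-1` fixes at most `c` coordinates (the parts on which `f = -1` are arbitrary), the sum of the
absolute values of the level-one Fourier coefficients of `f` is at most `2 * √c`. -/
theorem subcube_partition_bound_one_sided (F : (Fin n → ℤˣ) → Finset (Fin n))
    (hF : IsSubcubePartition F) (f : (Fin n → ℤˣ) → ℝ) (hf : ∀ x, |f x| ≤ 1)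
    (hconst : ∀ x y : Fin n → ℤˣ, (∀ i ∈ F x, y i = x i) → f y = f x)
    (c : ℕ) (hc : ∀ x, f x ≠ -1 → (F x).card ≤ c) :
    ∑ i, |fourierCoeff f {i}| ≤ 2 * Real.sqrt c := by
  obtain ⟨e, he, hW⟩ := level_one_eq_sum hF f hconst
  have hpow : (0 : ℝ) < 2 ^ n := by positivity
  have hY : ∑ x : Fin n → ℤˣ, ∑ i ∈ F x, e i * sgn x i = 0 := by
    rw [← sum_fixed_eq_zero hF e]
    refine Finset.sum_congr rfl fun x _ => ?_
    simp only [ite_mul, one_mul, zero_mul]
    rw [Finset.sum_ite_mem, Finset.univ_inter]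
  have hsum : ∑ x, f x * ∑ i ∈ F x, e i * sgn x i
      = ∑ x, (f x + 1) * (2 * (plusCount F e x : ℝ) - ((F x).card : ℝ)) := by
    have h1 : ∑ x, (f x + 1) * ∑ i ∈ F x, e i * sgn x i
        = ∑ x, f x * ∑ i ∈ F x, e i * sgn x i
          + ∑ x : Fin n → ℤˣ, ∑ i ∈ F x, e i * sgn x i := by
      rw [← Finset.sum_add_distrib]
      refine Finset.sum_congr rfl fun x _ => ?_
      ring
    rw [hY, add_zero] at h1
    rw [← h1]
    refine Finset.sum_congr rfl fun x _ => ?_
    rw [signed_sum_eq F e he x]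
  have hr0 : 0 ≤ Real.sqrt c := Real.sqrt_nonneg _
  -- the two weights are nonnegative
  have hw0 : 0 ≤ 1 - 1 / Real.sqrt c := by
    rcases Nat.eq_zero_or_pos c with h | h
    · rw [h]
      simp
    · have hc1 : (1 : ℝ) ≤ c := by exact_mod_cast h
      have hr1 : 1 ≤ Real.sqrt c := by
        rw [Real.one_le_sqrt]
        exact hc1
      have : 1 / Real.sqrt c ≤ 1 := by
        rw [div_le_one (by linarith)]
        exact hr1
      linarith
  have hw1 : 0 ≤ 1 + 1 / Real.sqrt c := by positivity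
  have hpt : ∀ x, (f x + 1) * (2 * (plusCount F e x : ℝ) - ((F x).card : ℝ))
      ≤ 2 * (Real.sqrt c * ∏ i ∈ F x,
          (if e i * ((x i : ℤ) : ℝ) = 1 then 1 + 1 / Real.sqrt c else 1 - 1 / Real.sqrt c)) := by
    intro x
    rw [prod_fixed_eq]
    have hB : 0 ≤ Real.sqrt c * ((1 + 1 / Real.sqrt c) ^ (plusCount F e x)
        * (1 - 1 / Real.sqrt c) ^ ((F x).card - plusCount F e x)) := by positivity
    have hfx := abs_le.1 (hf x)
    by_cases hx : f x = -1
    · rw [hx]
      linarith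
    · have hq := hc x hx
      have hp := plusCount_le F e x
      have hA : 2 * (plusCount F e x : ℝ) - ((F x).card : ℝ)
          ≤ Real.sqrt c * ((1 + 1 / Real.sqrt c) ^ (plusCount F e x)
            * (1 - 1 / Real.sqrt c) ^ ((F x).card - plusCount F e x)) := by
        rcases Nat.eq_zero_or_pos c with h | h
        · have hq0 : (F x).card = 0 := by omega
          have hp0 : plusCount F e x = 0 := by omega
          rw [hq0, hp0]
          simp
        · exact one_sided_scalar c (plusCount F e x) (F x).card h hp hq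
      rcases le_or_gt (2 * (plusCount F e x : ℝ) - ((F x).card : ℝ)) 0 with h0 | h0
      · have : (f x + 1) * (2 * (plusCount F e x : ℝ) - ((F x).card : ℝ)) ≤ 0 :=
          mul_nonpos_of_nonneg_of_nonpos (by linarith) h0
        linarith
      · have : (f x + 1) * (2 * (plusCount F e x : ℝ) - ((F x).card : ℝ))
            ≤ 2 * (2 * (plusCount F e x : ℝ) - ((F x).card : ℝ)) :=
          mul_le_mul_of_nonneg_right (by linarith) h0.le
        linarith
  have hw := wald_identity hF
    (fun i v => if e i * ((v : ℤ) : ℝ) = 1 then 1 + 1 / Real.sqrt c else 1 - 1 / Real.sqrt c) (by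
      intro i
      rcases he i with h | h
      · rw [h]
        norm_num
      · rw [h]
        norm_num)
  rw [hW, div_le_iff₀ hpow, hsum]
  calc ∑ x, (f x + 1) * (2 * (plusCount F e x : ℝ) - ((F x).card : ℝ))
      ≤ ∑ x, 2 * (Real.sqrt c * ∏ i ∈ F x,
          (if e i * ((x i : ℤ) : ℝ) = 1 then 1 + 1 / Real.sqrt c else 1 - 1 / Real.sqrt c)) :=
        Finset.sum_le_sum fun x _ => hpt x
    _ = 2 * Real.sqrt c * 2 ^ n := by
        rw [← Finset.mul_sum, ← Finset.mul_sum, hw]
        ring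

end Vale.Agent.Lib.P047.helper64
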