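import Vale.Agent.Lib.P047.helper64.OneSided

/-!
# P047: a one-sided average bound for subcube partitions

Let `F` describe a partition of the cube into subcubes and let `f` (values in `[-1,1]`) be constant
on every part.  Then for every real `r ≥ 1`

  `∑ i, |fourierCoeff f {i}| ≤ E[(1 + f) * |F|] / r + r * E[1 - f]`,

and hence `∑ i, |fourierCoeff f {i}| ≤ 2 * √(E[(1 + f) * |F|] * E[1 - f])`:
only the parts on which `f` is not `-1` are charged for their fixed coordinates.

Proof: with `Y x` the signed sum of the fixed coordinates of the part of `x`, the level-one sum is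
`E[(1 + f) Y]`.  For the product measure with bias `t = 1/r` in the direction of the signs the
Wald identity gives `E[P] = 1`, `P x = ∏_{i ∈ F x} (1 ± t)`, and the lattice inequality
`(p - m) + r ≤ (p + m) / r + r (1 + t)^p (1 - t)^m` (all natural `p`, `m`) gives
`Y ≤ |F| / r + r P - r` on every part.
-/

namespace Vale.Agent.Lib.P047.helper64

open Finset

variable {n : ℕ}

/-- **Lattice inequality.**  For `r ≥ 1`, `t = 1/r` and all natural numbers `p`, `m`:
`(p - m) + r ≤ (p + m) t + r (1 + t)^p (1 - t)^m`.  Proof: the difference of the two sides does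
not decrease along a step `p → p + 1` when `(1+t)^p (1-t)^m ≥ 1 - t`, nor along a step
`m → m + 1` when `(1+t)^p (1-t)^m ≤ 1 + t`, and every lattice point other than the origin has a
neighbour below it from which such a step leads to it. -/
lemma lattice_ineq (r t : ℝ) (hr : 1 ≤ r) (hrt : r * t = 1) :
    ∀ k p m : ℕ, p + m = k →
      ((p : ℝ) - m) + r ≤ ((p : ℝ) + m) * t + r * ((1 + t) ^ p * (1 - t) ^ m) := by
  have hr0 : 0 < r := by linarith
  have ht0 : 0 ≤ t := by
    by_contra h
    push Not at h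
    nlinarith
  have ht1 : t ≤ 1 := by nlinarith
  have hu : 1 ≤ 1 + t := by linarith
  have hv : 0 ≤ 1 - t := by linarith
  have hv1 : 1 - t ≤ 1 := by linarith
  -- a step in `p`
  have step_p : ∀ p m : ℕ,
      ((p : ℝ) - m) + r ≤ ((p : ℝ) + m) * t + r * ((1 + t) ^ p * (1 - t) ^ m) →
      1 - t ≤ (1 + t) ^ p * (1 - t) ^ m →
      (((p + 1 : ℕ) : ℝ) - m) + r
        ≤ (((p + 1 : ℕ) : ℝ) + m) * t + r * ((1 + t) ^ (p + 1) * (1 - t) ^ m) := by
    intro p m h hP
    have e : r * ((1 + t) ^ (p + 1) * (1 - t) ^ m)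
        = r * ((1 + t) ^ p * (1 - t) ^ m) + (r * t) * ((1 + t) ^ p * (1 - t) ^ m) := by
      rw [pow_succ]
      ring
    rw [e, hrt]
    push_cast
    linarith
  -- a step in `m`
  have step_m : ∀ p m : ℕ,
      ((p : ℝ) - m) + r ≤ ((p : ℝ) + m) * t + r * ((1 + t) ^ p * (1 - t) ^ m) →
      (1 + t) ^ p * (1 - t) ^ m ≤ 1 + t →
      ((p : ℝ) - ((m + 1 : ℕ) : ℝ)) + r
        ≤ ((p : ℝ) + ((m + 1 : ℕ) : ℝ)) * t + r * ((1 + t) ^ p * (1 - t) ^ (m + 1)) := by
    intro p m h hP
    have e : r * ((1 + t) ^ p * (1 - t) ^ (m + 1))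
        = r * ((1 + t) ^ p * (1 - t) ^ m) - (r * t) * ((1 + t) ^ p * (1 - t) ^ m) := by
      rw [pow_succ]
      ring
    rw [e, hrt]
    push_cast
    linarith
  intro k
  induction k with
  | zero =>
    intro p m h
    have hp : p = 0 := by omega
    have hm : m = 0 := by omega
    subst hp
    subst hm
    simp
  | succ k ih =>
    intro p m h
    rcases Nat.eq_zero_or_pos m with hm | hm
    · subst hm
      obtain ⟨p', rfl⟩ : ∃ p', p = p' + 1 := ⟨p - 1, by omega⟩
      refine step_p p' 0 (ih p' 0 (by omega)) ?_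
      have h1 : 1 ≤ (1 + t) ^ p' := one_le_pow₀ hu
      simp only [pow_zero, mul_one]
      linarith
    · rcases Nat.eq_zero_or_pos p with hp | hp
      · subst hp
        obtain ⟨m', rfl⟩ : ∃ m', m = m' + 1 := ⟨m - 1, by omega⟩
        refine step_m 0 m' (ih 0 m' (by omega)) ?_
        have h1 : (1 - t) ^ m' ≤ 1 := pow_le_one₀ hv hv1
        simp only [pow_zero, one_mul]
        linarith
      · obtain ⟨p', rfl⟩ : ∃ p', p = p' + 1 := ⟨p - 1, by omega⟩
        obtain ⟨m', rfl⟩ : ∃ m', m = m' + 1 := ⟨m - 1, by omega⟩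
        have hQ0 : 0 ≤ (1 + t) ^ p' * (1 - t) ^ m' := by positivity
        rcases le_or_gt 1 ((1 + t) ^ p' * (1 - t) ^ m') with hQ | hQ
        · refine step_p p' (m' + 1) (ih p' (m' + 1) (by omega)) ?_
          have e : (1 + t) ^ p' * (1 - t) ^ (m' + 1)
              = ((1 + t) ^ p' * (1 - t) ^ m') * (1 - t) := by
            rw [pow_succ]
            ring
          rw [e]
          nlinarith
        · refine step_m (p' + 1) m' (ih (p' + 1) m' (by omega)) ?_
          have e : (1 + t) ^ (p' + 1) * (1 - t) ^ m'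
              = ((1 + t) ^ p' * (1 - t) ^ m') * (1 + t) := by
            rw [pow_succ]
            ring
          rw [e]
          nlinarith

/-- The lattice inequality for `p` out of `q` fixed coordinates. -/
lemma lattice_scalar (r : ℝ) (hr : 1 ≤ r) (p q : ℕ) (hpq : p ≤ q) :
    2 * (p : ℝ) - q + r ≤ (q : ℝ) / r + r * ((1 + 1 / r) ^ p * (1 - 1 / r) ^ (q - p)) := by
  have hr0 : 0 < r := by linarith
  have hrt : r * (1 / r) = 1 := by field_simp
  have h := lattice_ineq r (1 / r) hr hrt (p + (q - p)) p (q - p) rfl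
  have e : ((q - p : ℕ) : ℝ) = (q : ℝ) - p := by rw [Nat.cast_sub hpq]
  rw [e] at h
  have e2 : ((p : ℝ) + ((q : ℝ) - p)) * (1 / r) = (q : ℝ) / r := by ring
  rw [e2] at h
  linarith

/-- Optimising `A / r + r * B` over `r ≥ 1`, with the help of the bound `W ≤ A`. -/
lemma opt_sqrt (W A B : ℝ) (hA : 0 ≤ A) (hB : 0 ≤ B) (htriv : W ≤ A)
    (hr : ∀ r : ℝ, 1 ≤ r → W ≤ A / r + r * B) : W ≤ 2 * Real.sqrt (A * B) := by
  have hs : 0 ≤ Real.sqrt (A * B) := Real.sqrt_nonneg _
  rcases le_or_gt A B with hAB | hAB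
  · have h1 : A ≤ Real.sqrt (A * B) := by
      apply Real.le_sqrt_of_sq_le
      nlinarith
    linarith
  · have hApos : 0 < A := lt_of_le_of_lt hB hAB
    rcases eq_or_lt_of_le hB with hB00 | hBpos
    · have hle : W ≤ 0 := by
        by_contra hcon
        push Not at hcon
        have hq : 0 ≤ 2 * A / W := by positivity
        have h1 := hr (2 * A / W + 1) (by linarith)
        rw [← hB00, mul_zero, add_zero] at h1
        have h2 : A / (2 * A / W + 1) ≤ W / 2 := by
          rw [div_le_div_iff₀ (by positivity) (by norm_num)]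
          have h3 : W * (2 * A / W + 1) = 2 * A + W := by field_simp
          linarith
        linarith
      linarith
    · have hsA : 0 < Real.sqrt A := Real.sqrt_pos.2 hApos
      have hsB : 0 < Real.sqrt B := Real.sqrt_pos.2 hBpos
      have hr1 : 1 ≤ Real.sqrt A / Real.sqrt B := by
        rw [le_div_iff₀ hsB, one_mul]
        exact Real.sqrt_le_sqrt hAB.le
      have h1 := hr _ hr1
      have eA : Real.sqrt A * Real.sqrt A = A := Real.mul_self_sqrt hA
      have eB : Real.sqrt B * Real.sqrt B = B := Real.mul_self_sqrt hB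
      have e1 : A / (Real.sqrt A / Real.sqrt B) = Real.sqrt A * Real.sqrt B := by
        rw [div_div_eq_mul_div, div_eq_iff hsA.ne']
        nlinarith
      have e2 : Real.sqrt A / Real.sqrt B * B = Real.sqrt A * Real.sqrt B := by
        rw [div_mul_eq_mul_div, div_eq_iff hsB.ne']
        nlinarith
      rw [e1, e2] at h1
      rw [Real.sqrt_mul hA]
      linarith

/-- The level-one sum as the mean of `(1 + f) Y`, `Y` the signed sum of the fixed coordinates. -/
lemma level_one_eq_one_add {F : (Fin n → ℤˣ) → Finset (Fin n)} (hF : IsSubcubePartition F)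
    (f : (Fin n → ℤˣ) → ℝ)
    (hconst : ∀ x y : Fin n → ℤˣ, (∀ i ∈ F x, y i = x i) → f y = f x) :
    ∃ e : Fin n → ℝ, (∀ i, e i = 1 ∨ e i = -1) ∧
      ∑ i, |fourierCoeff f {i}|
        = (∑ x, (f x + 1) * (2 * (plusCount F e x : ℝ) - ((F x).card : ℝ))) / 2 ^ n := by
  obtain ⟨e, he, hW⟩ := level_one_eq_sum hF f hconst
  refine ⟨e, he, ?_⟩
  have hY : ∑ x : Fin n → ℤˣ, ∑ i ∈ F x, e i * sgn x i = 0 := by
    rw [← sum_fixed_eq_zero hF e]
    refine Finset.sum_congr rfl fun x _ => ?_
    simp only [ite_mul, one_mul, zero_mul]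
    rw [Finset.sum_ite_mem, Finset.univ_inter]
  have hsum : ∑ x, f x * ∑ i ∈ F x, e i * sgn x i
      = ∑ x, (f x + 1) * (2 * (plusCount F e x : ℝ) - ((F x).card : ℝ)) := by
    have h1 : ∑ x, (f x + 1) * ∑ i ∈ F x, e i * sgn x i
        = ∑ x, f x * ∑ i ∈ F x, e i * sgn x i
          + ∑ x : Fin n → ℤˣ, ∑ i ∈ F x, e i * sgn x i := by
      rw [← Finset.sum_add_distrib]
      refine Finset.sum_congr rfl fun x _ => ?_
      ring
    rw [hY, add_zero] at h1
    rw [← h1]
    refine Finset.sum_congr rfl fun x _ => ?_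
    rw [signed_sum_eq F e he x]
  rw [hW, hsum]

/-- **One-sided average bound.**  Let `F` describe a partition of the cube into subcubes and let
`f`, with values in `[-1,1]`, be constant on every part.  Then for every real `r ≥ 1` the sum of the
absolute values of the level-one Fourier coefficients of `f` is at most
`E[(1 + f) |F|] / r + r E[1 - f]` (`E` the average over the cube). -/
theorem subcube_partition_bound_one_sided_avg (F : (Fin n → ℤˣ) → Finset (Fin n))
    (hF : IsSubcubePartition F) (f : (Fin n → ℤˣ) → ℝ) (hf : ∀ x, |f x| ≤ 1)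
    (hconst : ∀ x y : Fin n → ℤˣ, (∀ i ∈ F x, y i = x i) → f y = f x)
    (r : ℝ) (hr : 1 ≤ r) :
    ∑ i, |fourierCoeff f {i}|
      ≤ ((∑ x, (1 + f x) * ((F x).card : ℝ)) / 2 ^ n) / r
        + r * ((∑ x, (1 - f x)) / 2 ^ n) := by
  obtain ⟨e, he, hW⟩ := level_one_eq_one_add hF f hconst
  have hpow : (0 : ℝ) < 2 ^ n := by positivity
  have hr0 : 0 < r := by linarith
  have hw0 : 0 ≤ 1 - 1 / r := by
    have : 1 / r ≤ 1 := by
      rw [div_le_one hr0]
      exact hr
    linarith
  have hw1 : 0 ≤ 1 + 1 / r := by positivity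
  have hpt : ∀ x, (f x + 1) * (2 * (plusCount F e x : ℝ) - ((F x).card : ℝ))
      ≤ (1 + f x) * ((F x).card : ℝ) / r
        + 2 * (r * ∏ i ∈ F x,
          (if e i * ((x i : ℤ) : ℝ) = 1 then 1 + 1 / r else 1 - 1 / r))
        - r * (1 + f x) := by
    intro x
    rw [prod_fixed_eq]
    have hP0 : 0 ≤ (1 + 1 / r) ^ (plusCount F e x)
        * (1 - 1 / r) ^ ((F x).card - plusCount F e x) := by positivity
    have hfx := abs_le.1 (hf x)
    have hA := lattice_scalar r hr (plusCount F e x) (F x).card (plusCount_le F e x)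
    have h1 : (f x + 1) * (2 * (plusCount F e x : ℝ) - ((F x).card : ℝ))
        ≤ (f x + 1) * (((F x).card : ℝ) / r + r * ((1 + 1 / r) ^ (plusCount F e x)
          * (1 - 1 / r) ^ ((F x).card - plusCount F e x)) - r) :=
      mul_le_mul_of_nonneg_left (by linarith) (by linarith)
    have h2 : (f x + 1) * (r * ((1 + 1 / r) ^ (plusCount F e x)
          * (1 - 1 / r) ^ ((F x).card - plusCount F e x)))
        ≤ 2 * (r * ((1 + 1 / r) ^ (plusCount F e x)
          * (1 - 1 / r) ^ ((F x).card - plusCount F e x))) :=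
      mul_le_mul_of_nonneg_right (by linarith) (by positivity)
    have h3 : (f x + 1) * (((F x).card : ℝ) / r + r * ((1 + 1 / r) ^ (plusCount F e x)
          * (1 - 1 / r) ^ ((F x).card - plusCount F e x)) - r)
        = (1 + f x) * ((F x).card : ℝ) / r + (f x + 1) * (r * ((1 + 1 / r) ^ (plusCount F e x)
          * (1 - 1 / r) ^ ((F x).card - plusCount F e x))) - r * (1 + f x) := by ring
    linarith
  have hw := wald_identity hF
    (fun i v => if e i * ((v : ℤ) : ℝ) = 1 then 1 + 1 / r else 1 - 1 / r) (by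
      intro i
      rcases he i with h | h
      · rw [h]
        norm_num
      · rw [h]
        norm_num)
  have hcard : ∑ _x : Fin n → ℤˣ, (1 : ℝ) = 2 ^ n := by
    rw [Finset.sum_const, Finset.card_univ, nsmul_eq_mul, mul_one, card_cube]
  have h1f : ∑ x, (1 - f x) = 2 * 2 ^ n - ∑ x, (1 + f x) := by
    rw [← hcard, Finset.mul_sum, ← Finset.sum_sub_distrib]
    refine Finset.sum_congr rfl fun x _ => ?_
    ring
  have hmain : ∑ x, (f x + 1) * (2 * (plusCount F e x : ℝ) - ((F x).card : ℝ))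
      ≤ (∑ x, (1 + f x) * ((F x).card : ℝ)) / r + r * ∑ x, (1 - f x) := by
    calc ∑ x, (f x + 1) * (2 * (plusCount F e x : ℝ) - ((F x).card : ℝ))
        ≤ ∑ x, ((1 + f x) * ((F x).card : ℝ) / r
          + 2 * (r * ∏ i ∈ F x,
            (if e i * ((x i : ℤ) : ℝ) = 1 then 1 + 1 / r else 1 - 1 / r))
          - r * (1 + f x)) := Finset.sum_le_sum fun x _ => hpt x
      _ = (∑ x, (1 + f x) * ((F x).card : ℝ)) / r + 2 * (r * 2 ^ n)
          - r * ∑ x, (1 + f x) := by
          rw [Finset.sum_sub_distrib, Finset.sum_add_distrib, ← Finset.sum_div,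
            ← Finset.mul_sum, ← Finset.mul_sum, hw, ← Finset.mul_sum]
      _ = (∑ x, (1 + f x) * ((F x).card : ℝ)) / r + r * ∑ x, (1 - f x) := by
          rw [h1f]
          ring
  rw [hW, div_le_iff₀ hpow]
  calc ∑ x, (f x + 1) * (2 * (plusCount F e x : ℝ) - ((F x).card : ℝ))
      ≤ (∑ x, (1 + f x) * ((F x).card : ℝ)) / r + r * ∑ x, (1 - f x) := hmain
    _ = ((∑ x, (1 + f x) * ((F x).card : ℝ)) / 2 ^ n / r
        + r * ((∑ x, (1 - f x)) / 2 ^ n)) * 2 ^ n := by
        field_simp

/-- **One-sided average bound, square-root form.**  Under the same hypotheses the sum of the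
absolute values of the level-one Fourier coefficients of `f` is at most
`2 √(E[(1 + f) |F|] * E[1 - f])`. -/
theorem subcube_partition_bound_one_sided_sqrt (F : (Fin n → ℤˣ) → Finset (Fin n))
    (hF : IsSubcubePartition F) (f : (Fin n → ℤˣ) → ℝ) (hf : ∀ x, |f x| ≤ 1)
    (hconst : ∀ x y : Fin n → ℤˣ, (∀ i ∈ F x, y i = x i) → f y = f x) :
    ∑ i, |fourierCoeff f {i}|
      ≤ 2 * Real.sqrt (((∑ x, (1 + f x) * ((F x).card : ℝ)) / 2 ^ n)
        * ((∑ x, (1 - f x)) / 2 ^ n)) := by
  have hpow : (0 : ℝ) < 2 ^ n := by positivity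
  have hA0 : 0 ≤ (∑ x, (1 + f x) * ((F x).card : ℝ)) / 2 ^ n := by
    refine div_nonneg (Finset.sum_nonneg fun x _ => ?_) hpow.le
    have hfx := abs_le.1 (hf x)
    exact mul_nonneg (by linarith) (Nat.cast_nonneg _)
  have hB0 : 0 ≤ (∑ x, (1 - f x)) / 2 ^ n := by
    refine div_nonneg (Finset.sum_nonneg fun x _ => ?_) hpow.le
    have hfx := abs_le.1 (hf x)
    linarith
  have htriv : ∑ i, |fourierCoeff f {i}| ≤ (∑ x, (1 + f x) * ((F x).card : ℝ)) / 2 ^ n := by
    obtain ⟨e, he, hW⟩ := level_one_eq_one_add hF f hconst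
    rw [hW]
    refine div_le_div_of_nonneg_right (Finset.sum_le_sum fun x _ => ?_) hpow.le
    have hfx := abs_le.1 (hf x)
    have hp : (plusCount F e x : ℝ) ≤ ((F x).card : ℝ) := by
      exact_mod_cast plusCount_le F e x
    have h1 : (f x + 1) * (2 * (plusCount F e x : ℝ) - ((F x).card : ℝ))
        ≤ (f x + 1) * ((F x).card : ℝ) :=
      mul_le_mul_of_nonneg_left (by linarith) (by linarith)
    linarith
  exact opt_sqrt _ _ _ hA0 hB0 htriv
    (fun r hr => subcube_partition_bound_one_sided_avg F hF f hf hconst r hr)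

end Vale.Agent.Lib.P047.helper64
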