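import Vale.Agent.Lib.P047.helper64.Subcube
import Vale.Agent.Lib.P047.helper68.CubeAbs
import Vale.Agent.Lib.P047.helper89.AbstractBound

/-!
# P047: the sharp bound for subcube partitions

If every part of a subcube partition of the cube `{-1,1}^n` fixes at most `k` coordinates and `f`
(with values in `[-1,1]`) is constant on every part, then the sum of the absolute values of the
level-one Fourier coefficients of `f` is at most `E|X_1 + ... + X_k|`, the value of the majority
function on `k` bits.

The proof uses a Wald identity for subcube partitions: for weights `ω i` on the two values of each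
coordinate with `ω i 1 + ω i (-1) = 2`, the average over the cube of the product of the weights of
the fixed coordinates is `1`.
-/

namespace Vale.Agent.Lib.P047.helper64

open Finset

variable {n : ℕ}

/-- The fixed coordinates of the part of `x` together with all coordinates of index below `j`. -/
def extSet (F : (Fin n → ℤˣ) → Finset (Fin n)) (j : ℕ) (x : Fin n → ℤˣ) : Finset (Fin n) :=
  F x ∪ Finset.univ.filter (fun i : Fin n => i.val < j)

lemma extSet_zero (F : (Fin n → ℤˣ) → Finset (Fin n)) (x : Fin n → ℤˣ) : extSet F 0 x = F x := by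
  unfold extSet
  simp

lemma extSet_top (F : (Fin n → ℤˣ) → Finset (Fin n)) (x : Fin n → ℤˣ) :
    extSet F n x = Finset.univ := by
  unfold extSet
  ext i
  simp

lemma extSet_succ_of_lt (F : (Fin n → ℤˣ) → Finset (Fin n)) (j : ℕ) (hj : j < n)
    (x : Fin n → ℤˣ) : extSet F (j + 1) x = insert (⟨j, hj⟩ : Fin n) (extSet F j x) := by
  unfold extSet
  ext i
  simp only [Finset.mem_union, Finset.mem_filter, Finset.mem_univ, true_and, Finset.mem_insert]
  constructor
  · rintro (h | h)
    · exact Or.inr (Or.inl h)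
    · rcases Nat.lt_succ_iff_lt_or_eq.1 h with h1 | h1
      · exact Or.inr (Or.inr h1)
      · exact Or.inl (Fin.ext h1)
  · rintro (h | h | h)
    · right
      rw [h]
      exact Nat.lt_succ_self j
    · exact Or.inl h
    · exact Or.inr (Nat.lt_succ_of_lt h)

lemma extSet_succ_of_ge (F : (Fin n → ℤˣ) → Finset (Fin n)) (j : ℕ) (hj : n ≤ j)
    (x : Fin n → ℤˣ) : extSet F (j + 1) x = extSet F j x := by
  unfold extSet
  ext i
  have h1 : i.val < j := lt_of_lt_of_le i.isLt hj
  simp only [Finset.mem_union, Finset.mem_filter, Finset.mem_univ, true_and]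
  constructor
  · rintro (h | _)
    · exact Or.inl h
    · exact Or.inr h1
  · rintro (h | _)
    · exact Or.inl h
    · exact Or.inr (Nat.lt_succ_of_lt h1)

/-- One step of the Wald identity: adding coordinate `j` to all parts does not change the sum. -/
lemma sum_prod_extSet_succ {F : (Fin n → ℤˣ) → Finset (Fin n)} (hF : IsSubcubePartition F)
    (ω : Fin n → ℤˣ → ℝ) (hω : ∀ i, ω i 1 + ω i (-1) = 2) (j : ℕ) :
    ∑ x, ∏ i ∈ extSet F (j + 1) x, ω i (x i) = ∑ x, ∏ i ∈ extSet F j x, ω i (x i) := by
  by_cases hj : j < n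
  · have hnot : ∀ x : Fin n → ℤˣ, (⟨j, hj⟩ : Fin n) ∉ F x →
        (⟨j, hj⟩ : Fin n) ∉ extSet F j x := by
      intro x hx
      unfold extSet
      simp [hx]
    have key : ∀ x : Fin n → ℤˣ, ∏ i ∈ extSet F (j + 1) x, ω i (x i)
        = ∏ i ∈ extSet F j x, ω i (x i)
          + (if (⟨j, hj⟩ : Fin n) ∈ F x then 0
             else (ω ⟨j, hj⟩ (x ⟨j, hj⟩) - 1) * ∏ i ∈ extSet F j x, ω i (x i)) := by
      intro x
      rw [extSet_succ_of_lt F j hj x]
      by_cases hx : (⟨j, hj⟩ : Fin n) ∈ F x
      · have hmem : (⟨j, hj⟩ : Fin n) ∈ extSet F j x := by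
          unfold extSet
          exact Finset.mem_union_left _ hx
        rw [Finset.insert_eq_of_mem hmem, if_pos hx, add_zero]
      · rw [Finset.prod_insert (hnot x hx), if_neg hx]
        ring
    have hzero : ∑ x, (if (⟨j, hj⟩ : Fin n) ∈ F x then (0 : ℝ)
        else (ω ⟨j, hj⟩ (x ⟨j, hj⟩) - 1) * ∏ i ∈ extSet F j x, ω i (x i)) = 0 := by
      refine sum_eq_zero_of_flip_neg ⟨j, hj⟩ _ fun x => ?_
      by_cases hx : (⟨j, hj⟩ : Fin n) ∈ F x
      · rw [if_pos hx, if_pos ((mem_F_flip hF ⟨j, hj⟩ x).2 hx), neg_zero]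
      · have hx' : (⟨j, hj⟩ : Fin n) ∉ F (flip ⟨j, hj⟩ x) :=
          fun h => hx ((mem_F_flip hF ⟨j, hj⟩ x).1 h)
        have hFeq : F (flip ⟨j, hj⟩ x) = F x := F_flip_of_notMem hF ⟨j, hj⟩ x hx
        have hext : extSet F j (flip ⟨j, hj⟩ x) = extSet F j x := by
          unfold extSet
          rw [hFeq]
        have hprod : ∏ i ∈ extSet F j x, ω i (flip ⟨j, hj⟩ x i)
            = ∏ i ∈ extSet F j x, ω i (x i) := by
          refine Finset.prod_congr rfl fun i hi => ?_
          rw [flip_apply, if_neg]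
          rintro rfl
          exact hnot x hx hi
        have hval : ω ⟨j, hj⟩ (flip ⟨j, hj⟩ x ⟨j, hj⟩) - 1 = -(ω ⟨j, hj⟩ (x ⟨j, hj⟩) - 1) := by
          rw [flip_apply, if_pos rfl]
          have h2 := hω ⟨j, hj⟩
          rcases Int.units_eq_one_or (x ⟨j, hj⟩) with h | h
          · rw [h]
            linarith
          · rw [h, neg_neg]
            linarith
        rw [if_neg hx, if_neg hx', hext, hprod, hval]
        ring
    simp_rw [key]
    rw [Finset.sum_add_distrib, hzero, add_zero]
  · push Not at hj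
    refine Finset.sum_congr rfl fun x _ => ?_
    rw [extSet_succ_of_ge F j hj x]

lemma sum_prod_extSet {F : (Fin n → ℤˣ) → Finset (Fin n)} (hF : IsSubcubePartition F)
    (ω : Fin n → ℤˣ → ℝ) (hω : ∀ i, ω i 1 + ω i (-1) = 2) (j : ℕ) :
    ∑ x, ∏ i ∈ extSet F j x, ω i (x i) = ∑ x, ∏ i ∈ F x, ω i (x i) := by
  induction j with
  | zero =>
    refine Finset.sum_congr rfl fun x _ => ?_
    rw [extSet_zero]
  | succ j ih => rw [sum_prod_extSet_succ hF ω hω j, ih]

/-- **Wald identity for subcube partitions.**  If the two weights of every coordinate add up to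
`2`, the sum over the cube of the product of the weights of the fixed coordinates is `2^n`. -/
theorem wald_identity {F : (Fin n → ℤˣ) → Finset (Fin n)} (hF : IsSubcubePartition F)
    (ω : Fin n → ℤˣ → ℝ) (hω : ∀ i, ω i 1 + ω i (-1) = 2) :
    ∑ x, ∏ i ∈ F x, ω i (x i) = 2 ^ n := by
  have hE : IsSubcubePartition (fun _ : Fin n → ℤˣ => (∅ : Finset (Fin n))) := fun _ _ _ => rfl
  have h1 := sum_prod_extSet hF ω hω n
  have h2 := sum_prod_extSet hE ω hω n
  simp_rw [extSet_top] at h1 h2
  rw [← h1, h2]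
  simp

/-- The number of fixed coordinates of the part of `x` whose signed value is `+1`. -/
noncomputable def plusCount (F : (Fin n → ℤˣ) → Finset (Fin n)) (e : Fin n → ℝ)
    (x : Fin n → ℤˣ) : ℕ :=
  ((F x).filter (fun i => e i * sgn x i = 1)).card

lemma plusCount_le (F : (Fin n → ℤˣ) → Finset (Fin n)) (e : Fin n → ℝ) (x : Fin n → ℤˣ) :
    plusCount F e x ≤ (F x).card :=
  Finset.card_filter_le _ _

lemma signed_sum_eq (F : (Fin n → ℤˣ) → Finset (Fin n)) (e : Fin n → ℝ)
    (he : ∀ i, e i = 1 ∨ e i = -1) (x : Fin n → ℤˣ) :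
    ∑ i ∈ F x, e i * sgn x i = 2 * (plusCount F e x : ℝ) - ((F x).card : ℝ) := by
  have h1 : ∀ i ∈ F x, e i * sgn x i = if e i * sgn x i = 1 then (1 : ℝ) else -1 := by
    intro i _
    split_ifs with h
    · exact h
    · rcases he i with h1 | h1 <;> rcases sgn_eq x i with h2 | h2
      · exfalso
        apply h
        rw [h1, h2]
        norm_num
      · rw [h1, h2]
        norm_num
      · rw [h1, h2]
        norm_num
      · exfalso
        apply h
        rw [h1, h2]
        norm_num
  rw [Finset.sum_congr rfl h1, Finset.sum_ite, Finset.sum_const, Finset.sum_const]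
  have h2 : ((F x).filter (fun i => ¬ e i * sgn x i = 1)).card
      = (F x).card - plusCount F e x := by
    unfold plusCount
    rw [← Finset.card_filter_add_card_filter_not (s := F x) (fun i => e i * sgn x i = 1)]
    simp
  rw [h2]
  simp only [nsmul_eq_mul, mul_one]
  rw [Nat.cast_sub (plusCount_le F e x)]
  unfold plusCount
  ring

/-- The Wald identity with the weights `2a/(a+1)` and `2/(a+1)`, cleared of denominators. -/
lemma wald_poly {F : (Fin n → ℤˣ) → Finset (Fin n)} (hF : IsSubcubePartition F)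
    (e : Fin n → ℝ) (he : ∀ i, e i = 1 ∨ e i = -1) (k : ℕ) (hk : ∀ x, (F x).card ≤ k)
    (a : ℝ) (ha : 0 < a) :
    ∑ x, (2 : ℝ) ^ ((F x).card) * a ^ (plusCount F e x) * (a + 1) ^ (k - (F x).card)
      = 2 ^ n * (a + 1) ^ k := by
  have ha1 : a + 1 ≠ 0 := by positivity
  have hw := wald_identity hF
    (fun i v => if e i * ((v : ℤ) : ℝ) = 1 then 2 * a / (a + 1) else 2 / (a + 1)) (by
      intro i
      rcases he i with h | h
      · rw [h]
        norm_num
        field_simp
      · rw [h]
        norm_num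
        field_simp
        ring)
  have hterm : ∀ x : Fin n → ℤˣ,
      (2 : ℝ) ^ ((F x).card) * a ^ (plusCount F e x) * (a + 1) ^ (k - (F x).card)
        = (∏ i ∈ F x, (if e i * ((x i : ℤ) : ℝ) = 1 then 2 * a / (a + 1) else 2 / (a + 1)))
          * (a + 1) ^ k := by
    intro x
    have hp := plusCount_le F e x
    have hc := hk x
    rw [Finset.prod_ite, Finset.prod_const, Finset.prod_const]
    have h2 : ((F x).filter (fun i => ¬ e i * ((x i : ℤ) : ℝ) = 1)).card
        = (F x).card - plusCount F e x := by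
      unfold plusCount sgn
      rw [← Finset.card_filter_add_card_filter_not (s := F x)
        (fun i => e i * ((x i : ℤ) : ℝ) = 1)]
      simp
    have h3 : ((F x).filter (fun i => e i * ((x i : ℤ) : ℝ) = 1)).card = plusCount F e x := rfl
    rw [h2, h3]
    have e1 : (a + 1) ^ k = (a + 1) ^ (plusCount F e x)
        * (a + 1) ^ ((F x).card - plusCount F e x) * (a + 1) ^ (k - (F x).card) := by
      rw [← pow_add, ← pow_add]
      congr 1
      omega
    have e2 : (2 : ℝ) ^ ((F x).card) = 2 ^ (plusCount F e x)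
        * 2 ^ ((F x).card - plusCount F e x) := by
      rw [← pow_add]
      congr 1
      omega
    rw [e1, e2, div_pow, div_pow, mul_pow]
    field_simp
  simp_rw [hterm]
  rw [← Finset.sum_mul, hw]

/-- The level-one sum as the correlation of `f` with the signed sum of the fixed coordinates. -/
lemma level_one_eq_sum {F : (Fin n → ℤˣ) → Finset (Fin n)} (hF : IsSubcubePartition F)
    (f : (Fin n → ℤˣ) → ℝ)
    (hconst : ∀ x y : Fin n → ℤˣ, (∀ i ∈ F x, y i = x i) → f y = f x) :
    ∃ e : Fin n → ℝ, (∀ i, e i = 1 ∨ e i = -1) ∧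
      ∑ i, |fourierCoeff f {i}| = (∑ x, f x * ∑ i ∈ F x, e i * sgn x i) / 2 ^ n := by
  refine ⟨fun i => if fourierCoeff f {i} < 0 then -1 else 1, fun i => ?_, ?_⟩
  · by_cases h : fourierCoeff f {i} < 0
    · right
      simp [h]
    · left
      simp [h]
  · have habs : ∀ i, |fourierCoeff f {i}|
        = (if fourierCoeff f {i} < 0 then (-1 : ℝ) else 1) * fourierCoeff f {i} := by
      intro i
      split_ifs with h
      · rw [abs_of_neg h]
        ring
      · rw [abs_of_nonneg (not_lt.1 h)]
        ring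
    have h3 : ∑ x, f x * ∑ i ∈ F x,
          (if fourierCoeff f {i} < 0 then (-1 : ℝ) else 1) * sgn x i
        = ∑ i, (if fourierCoeff f {i} < 0 then (-1 : ℝ) else 1)
            * ∑ x, f x * sgn x i * (if i ∈ F x then (1 : ℝ) else 0) := by
      have h4 : ∀ x : Fin n → ℤˣ, f x * ∑ i ∈ F x,
            (if fourierCoeff f {i} < 0 then (-1 : ℝ) else 1) * sgn x i
          = ∑ i, (if fourierCoeff f {i} < 0 then (-1 : ℝ) else 1)
              * (f x * sgn x i * (if i ∈ F x then (1 : ℝ) else 0)) := by
        intro x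
        rw [Finset.mul_sum, ← Finset.sum_subset (Finset.subset_univ (F x))]
        · refine Finset.sum_congr rfl fun i hi => ?_
          rw [if_pos hi]
          ring
        · intro i _ hi
          rw [if_neg hi]
          ring
      simp_rw [h4]
      rw [Finset.sum_comm]
      refine Finset.sum_congr rfl fun i _ => ?_
      rw [Finset.mul_sum]
    rw [h3, Finset.sum_div]
    refine Finset.sum_congr rfl fun i _ => ?_
    rw [habs, fourierCoeff_singleton, sum_f_sgn_eq hF f hconst i]
    ring

/-- **Sharp subcube partition bound.**  If every part of the subcube partition fixes at most `k`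
coordinates and `f` (with values in `[-1,1]`) is constant on every part, the sum of the absolute
values of the level-one Fourier coefficients of `f` is at most `E|X_1 + ... + X_k|`, written as the
average over `{-1,1}^k` of the absolute value of the sum of the coordinates. -/
theorem subcube_partition_bound_sharp (F : (Fin n → ℤˣ) → Finset (Fin n))
    (hF : IsSubcubePartition F) (f : (Fin n → ℤˣ) → ℝ) (hf : ∀ x, |f x| ≤ 1)
    (hconst : ∀ x y : Fin n → ℤˣ, (∀ i ∈ F x, y i = x i) → f y = f x)
    (k : ℕ) (hk : ∀ x, (F x).card ≤ k) :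
    ∑ i, |fourierCoeff f {i}| ≤ (∑ y : Fin k → ℤˣ, |∑ i, ((y i : ℤ) : ℝ)|) / 2 ^ k := by
  obtain ⟨e, he, hW⟩ := level_one_eq_sum hF f hconst
  have hpow : (0 : ℝ) < 2 ^ n := by positivity
  have hpowk : (0 : ℝ) < 2 ^ k := by positivity
  have h1 : ∑ x, f x * ∑ i ∈ F x, e i * sgn x i
      ≤ ∑ x, |2 * (plusCount F e x : ℝ) - ((F x).card : ℝ)| := by
    refine Finset.sum_le_sum fun x _ => ?_
    rw [signed_sum_eq F e he x]
    calc f x * (2 * (plusCount F e x : ℝ) - ((F x).card : ℝ))
        ≤ |f x * (2 * (plusCount F e x : ℝ) - ((F x).card : ℝ))| := le_abs_self _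
      _ = |f x| * |2 * (plusCount F e x : ℝ) - ((F x).card : ℝ)| := abs_mul _ _
      _ ≤ 1 * |2 * (plusCount F e x : ℝ) - ((F x).card : ℝ)| :=
          mul_le_mul_of_nonneg_right (hf x) (abs_nonneg _)
      _ = |2 * (plusCount F e x : ℝ) - ((F x).card : ℝ)| := one_mul _
  have h2 := Vale.Agent.Lib.P047.H89.abstract_bound (ι := Fin n → ℤˣ) k (fun x => (F x).card)
    (fun x => plusCount F e x) (2 ^ n) (fun x => plusCount_le F e x) hk
    (fun a ha => wald_poly hF e he k hk a ha)
  rw [← Vale.Agent.Lib.P047.H68.cube_abs_sum_eq k] at h2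
  rw [hW, div_le_div_iff₀ hpow hpowk]
  calc (∑ x, f x * ∑ i ∈ F x, e i * sgn x i) * 2 ^ k
      ≤ (∑ x, |2 * (plusCount F e x : ℝ) - ((F x).card : ℝ)|) * 2 ^ k :=
        mul_le_mul_of_nonneg_right h1 hpowk.le
    _ ≤ (2 ^ n * (∑ y : Fin k → ℤˣ, |∑ i, ((y i : ℤ) : ℝ)|) / 2 ^ k) * 2 ^ k :=
        mul_le_mul_of_nonneg_right h2 hpowk.le
    _ = (∑ y : Fin k → ℤˣ, |∑ i, ((y i : ℤ) : ℝ)|) * 2 ^ n := by
        field_simp

/-- **Sharpness.**  For every `k` the function `sign (x_1 + ... + x_k)` (value `1` at ties) on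
`{-1,1}^k`, with the partition of the cube into points, attains the bound. -/
theorem sharp_example (k : ℕ) :
    ∃ (F : (Fin k → ℤˣ) → Finset (Fin k)) (f : (Fin k → ℤˣ) → ℝ),
      IsSubcubePartition F ∧
      (∀ x y : Fin k → ℤˣ, (∀ i ∈ F x, y i = x i) → f y = f x) ∧
      (∀ x, f x = 1 ∨ f x = -1) ∧ (∀ x, (F x).card ≤ k) ∧
      ∑ i, fourierCoeff f {i} = (∑ y : Fin k → ℤˣ, |∑ i, ((y i : ℤ) : ℝ)|) / 2 ^ k := by
  refine ⟨fun _ => Finset.univ,
    fun x => if 0 ≤ ∑ i, ((x i : ℤ) : ℝ) then 1 else -1, fun _ _ _ => rfl, ?_, ?_, ?_, ?_⟩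
  · intro x y h
    have hxy : y = x := funext fun i => h i (Finset.mem_univ i)
    rw [hxy]
  · intro x
    by_cases h : 0 ≤ ∑ i, ((x i : ℤ) : ℝ)
    · left
      simp [h]
    · right
      simp [h]
  · intro x
    simp
  · simp_rw [fourierCoeff_singleton]
    rw [← Finset.sum_div, Finset.sum_comm]
    congr 1
    refine Finset.sum_congr rfl fun x _ => ?_
    rw [← Finset.mul_sum]
    unfold sgn
    split_ifs with h
    · rw [abs_of_nonneg h, one_mul]
    · rw [abs_of_neg (not_le.1 h)]
      ring

end Vale.Agent.Lib.P047.helper64
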