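import Vale.Agent.Lib.P047.helper64.Basic

/-!
# P047: the level-one sum of a function that is constant on the parts of a subcube partition

A partition of the cube `{-1,1}^n` into subcubes is described by the map `F` sending a point `x`
to the set `F x` of coordinates that are fixed on the subcube through `x`.  If `f` has values in
`[-1,1]` and is constant on every part, then

`∑ i, |fourierCoeff f {i}| ≤ √(average of (F x).card)`.

The leaves of a decision tree form such a partition (`F x` = the coordinates queried on `x`), so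
this contains the decision-tree bound of O'Donnell and Servedio; subcube partitions need not come
from decision trees.
-/

namespace Vale.Agent.Lib.P047.helper64

open Finset

variable {n : ℕ}

/-- `F` describes a partition of the cube into subcubes: `F x` is the set of coordinates fixed on
the part through `x`, the part through `x` is `{y | ∀ i ∈ F x, y i = x i}`, and every point `y` of
that part has the same set of fixed coordinates (so it has the same part). -/
def IsSubcubePartition (F : (Fin n → ℤˣ) → Finset (Fin n)) : Prop :=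
  ∀ x y : Fin n → ℤˣ, (∀ i ∈ F x, y i = x i) → F y = F x

lemma flip_involutive (i : Fin n) :
    Function.Involutive (flip i : (Fin n → ℤˣ) → (Fin n → ℤˣ)) := flip_flip i

lemma sum_eq_zero_of_flip_neg (i : Fin n) (h : (Fin n → ℤˣ) → ℝ)
    (hh : ∀ x, h (flip i x) = -h x) : ∑ x, h x = 0 := by
  have h1 : ∑ x, h (flip i x) = ∑ x, h x :=
    Equiv.sum_comp (flip_involutive i).toPerm h
  have h2 : ∑ x, h (flip i x) = -∑ x, h x := by
    rw [← Finset.sum_neg_distrib]
    exact Finset.sum_congr rfl fun x _ => hh x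
  linarith

lemma F_flip_of_notMem {F : (Fin n → ℤˣ) → Finset (Fin n)} (hF : IsSubcubePartition F)
    (i : Fin n) (x : Fin n → ℤˣ) (hi : i ∉ F x) : F (flip i x) = F x := by
  refine hF x (flip i x) fun k hk => ?_
  rw [flip_apply, if_neg]
  rintro rfl
  exact hi hk

lemma mem_F_flip {F : (Fin n → ℤˣ) → Finset (Fin n)} (hF : IsSubcubePartition F)
    (i : Fin n) (x : Fin n → ℤˣ) : i ∈ F (flip i x) ↔ i ∈ F x := by
  constructor
  · intro h
    by_contra hx
    rw [F_flip_of_notMem hF i x hx] at h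
    exact hx h
  · intro h
    by_contra hx
    have h1 := F_flip_of_notMem hF i (flip i x) hx
    rw [flip_flip] at h1
    rw [h1] at h
    exact hx h

lemma f_flip_of_notMem {F : (Fin n → ℤˣ) → Finset (Fin n)} (f : (Fin n → ℤˣ) → ℝ)
    (hconst : ∀ x y : Fin n → ℤˣ, (∀ i ∈ F x, y i = x i) → f y = f x)
    (i : Fin n) (x : Fin n → ℤˣ) (hi : i ∉ F x) : f (flip i x) = f x := by
  refine hconst x (flip i x) fun k hk => ?_
  rw [flip_apply, if_neg]
  rintro rfl
  exact hi hk

lemma sum_f_sgn_notMem {F : (Fin n → ℤˣ) → Finset (Fin n)} (hF : IsSubcubePartition F)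
    (f : (Fin n → ℤˣ) → ℝ)
    (hconst : ∀ x y : Fin n → ℤˣ, (∀ i ∈ F x, y i = x i) → f y = f x) (i : Fin n) :
    ∑ x, f x * sgn x i * (if i ∈ F x then (0 : ℝ) else 1) = 0 := by
  refine sum_eq_zero_of_flip_neg i _ fun x => ?_
  by_cases hi : i ∈ F x
  · rw [if_pos hi, if_pos ((mem_F_flip hF i x).2 hi)]
    ring
  · rw [F_flip_of_notMem hF i x hi, f_flip_of_notMem f hconst i x hi, sgn_flip, if_pos rfl]
    ring

lemma sum_f_sgn_eq {F : (Fin n → ℤˣ) → Finset (Fin n)} (hF : IsSubcubePartition F)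
    (f : (Fin n → ℤˣ) → ℝ)
    (hconst : ∀ x y : Fin n → ℤˣ, (∀ i ∈ F x, y i = x i) → f y = f x) (i : Fin n) :
    ∑ x, f x * sgn x i = ∑ x, f x * sgn x i * (if i ∈ F x then (1 : ℝ) else 0) := by
  have h0 := sum_f_sgn_notMem hF f hconst i
  have h1 : ∑ x, f x * sgn x i = ∑ x, f x * sgn x i * (if i ∈ F x then (1 : ℝ) else 0)
      + ∑ x, f x * sgn x i * (if i ∈ F x then (0 : ℝ) else 1) := by
    rw [← Finset.sum_add_distrib]
    refine Finset.sum_congr rfl fun x _ => ?_
    split_ifs <;> ring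
  rw [h1, h0, add_zero]

lemma fourierCoeff_singleton (f : (Fin n → ℤˣ) → ℝ) (i : Fin n) :
    fourierCoeff f {i} = (∑ x, f x * sgn x i) / 2 ^ n := by
  unfold fourierCoeff sgn
  simp

/-- The cross terms vanish: for `i ≠ j` the set of points whose part fixes both `i` and `j` is
uncorrelated with `x i * x j`. -/
lemma sum_cross {F : (Fin n → ℤˣ) → Finset (Fin n)} (hF : IsSubcubePartition F)
    (i j : Fin n) (hij : i ≠ j) :
    ∑ x, sgn x i * sgn x j *
      ((if i ∈ F x then (1 : ℝ) else 0) * (if j ∈ F x then (1 : ℝ) else 0)) = 0 := by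
  have hA : ∑ x : Fin n → ℤˣ, sgn x i * sgn x j = 0 := by
    refine sum_eq_zero_of_flip_neg i _ fun x => ?_
    rw [sgn_flip, if_pos rfl, sgn_flip, if_neg (Ne.symm hij)]
    ring
  have hB : ∑ x, sgn x i * sgn x j * (if i ∈ F x then (0 : ℝ) else 1) = 0 := by
    refine sum_eq_zero_of_flip_neg i _ fun x => ?_
    rw [sgn_flip, if_pos rfl, sgn_flip, if_neg (Ne.symm hij)]
    by_cases hi : i ∈ F x
    · rw [if_pos hi, if_pos ((mem_F_flip hF i x).2 hi)]
      ring
    · rw [F_flip_of_notMem hF i x hi]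
      ring
  have hC : ∑ x, sgn x i * sgn x j * (if j ∈ F x then (0 : ℝ) else 1) = 0 := by
    refine sum_eq_zero_of_flip_neg j _ fun x => ?_
    rw [sgn_flip, if_neg hij, sgn_flip, if_pos rfl]
    by_cases hj : j ∈ F x
    · rw [if_pos hj, if_pos ((mem_F_flip hF j x).2 hj)]
      ring
    · rw [F_flip_of_notMem hF j x hj]
      ring
  have hD : ∑ x, sgn x i * sgn x j *
      ((if i ∈ F x then (0 : ℝ) else 1) * (if j ∈ F x then (0 : ℝ) else 1)) = 0 := by
    refine sum_eq_zero_of_flip_neg i _ fun x => ?_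
    rw [sgn_flip, if_pos rfl, sgn_flip, if_neg (Ne.symm hij)]
    by_cases hi : i ∈ F x
    · rw [if_pos hi, if_pos ((mem_F_flip hF i x).2 hi)]
      ring
    · rw [F_flip_of_notMem hF i x hi]
      ring
  have hsplit : ∑ x, sgn x i * sgn x j *
      ((if i ∈ F x then (1 : ℝ) else 0) * (if j ∈ F x then (1 : ℝ) else 0))
      = ∑ x : Fin n → ℤˣ, sgn x i * sgn x j
        - ∑ x, sgn x i * sgn x j * (if i ∈ F x then (0 : ℝ) else 1)
        - ∑ x, sgn x i * sgn x j * (if j ∈ F x then (0 : ℝ) else 1)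
        + ∑ x, sgn x i * sgn x j *
            ((if i ∈ F x then (0 : ℝ) else 1) * (if j ∈ F x then (0 : ℝ) else 1)) := by
    rw [← Finset.sum_sub_distrib, ← Finset.sum_sub_distrib, ← Finset.sum_add_distrib]
    refine Finset.sum_congr rfl fun x _ => ?_
    split_ifs <;> ring
  rw [hsplit, hA, hB, hC, hD]
  ring

/-- The second moment of the signed sum of the fixed coordinates is the average codimension. -/
lemma sum_sq_fixed {F : (Fin n → ℤˣ) → Finset (Fin n)} (hF : IsSubcubePartition F)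
    (e : Fin n → ℝ) (he : ∀ i, e i * e i = 1) :
    ∑ x, (∑ k, (if k ∈ F x then (1 : ℝ) else 0) * (e k * sgn x k)) ^ 2
      = ∑ x, ((F x).card : ℝ) := by
  have h1 : ∀ x : Fin n → ℤˣ, (∑ k, (if k ∈ F x then (1 : ℝ) else 0) * (e k * sgn x k)) ^ 2
      = ∑ k, ∑ l, e k * e l * (sgn x k * sgn x l *
          ((if k ∈ F x then (1 : ℝ) else 0) * (if l ∈ F x then (1 : ℝ) else 0))) := by
    intro x
    rw [sq, Finset.sum_mul_sum]
    refine Finset.sum_congr rfl fun k _ => Finset.sum_congr rfl fun l _ => ?_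
    ring
  have h2 : ∀ k : Fin n, ∑ x : Fin n → ℤˣ, ∑ l, e k * e l * (sgn x k * sgn x l *
          ((if k ∈ F x then (1 : ℝ) else 0) * (if l ∈ F x then (1 : ℝ) else 0)))
      = ∑ x, (if k ∈ F x then (1 : ℝ) else 0) := by
    intro k
    rw [Finset.sum_comm, Finset.sum_eq_single k]
    · refine Finset.sum_congr rfl fun x _ => ?_
      rw [he k, sgn_mul_self]
      split_ifs <;> ring
    · intro l _ hlk
      rw [← Finset.mul_sum, sum_cross hF k l (Ne.symm hlk), mul_zero]
    · intro h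
      exact absurd (Finset.mem_univ k) h
  simp_rw [h1]
  rw [Finset.sum_comm]
  simp_rw [h2]
  rw [Finset.sum_comm]
  refine Finset.sum_congr rfl fun x _ => ?_
  rw [Finset.sum_ite_mem, Finset.univ_inter, Finset.sum_const]
  simp

lemma card_cube : (Fintype.card (Fin n → ℤˣ) : ℝ) = 2 ^ n := by
  simp

/-- **Subcube partition bound.**  If `F` describes a partition of the cube `{-1,1}^n` into subcubes
and `f` takes values in `[-1,1]` and is constant on every part, then the sum of the absolute values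
of the level-one Fourier coefficients of `f` is at most the square root of the average number of
fixed coordinates (the average codimension of the part of a uniformly random point). -/
theorem subcube_partition_bound (F : (Fin n → ℤˣ) → Finset (Fin n)) (hF : IsSubcubePartition F)
    (f : (Fin n → ℤˣ) → ℝ) (hf : ∀ x, |f x| ≤ 1)
    (hconst : ∀ x y : Fin n → ℤˣ, (∀ i ∈ F x, y i = x i) → f y = f x) :
    ∑ i, |fourierCoeff f {i}| ≤ Real.sqrt ((∑ x, ((F x).card : ℝ)) / 2 ^ n) := by
  obtain ⟨e, he_def⟩ : ∃ e : Fin n → ℝ, ∀ i, e i = if fourierCoeff f {i} < 0 then -1 else 1 :=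
    ⟨_, fun _ => rfl⟩
  have he : ∀ i, e i * e i = 1 := by
    intro i
    rw [he_def]
    split_ifs <;> norm_num
  have habs : ∀ i, |fourierCoeff f {i}| = e i * fourierCoeff f {i} := by
    intro i
    rw [he_def]
    split_ifs with h
    · rw [abs_of_neg h]
      ring
    · rw [abs_of_nonneg (not_lt.1 h)]
      ring
  obtain ⟨Y, hY⟩ : ∃ Y : (Fin n → ℤˣ) → ℝ,
      ∀ x, Y x = ∑ k, (if k ∈ F x then (1 : ℝ) else 0) * (e k * sgn x k) := ⟨_, fun _ => rfl⟩
  have h3 : ∑ x, f x * Y x
      = ∑ i, e i * ∑ x, f x * sgn x i * (if i ∈ F x then (1 : ℝ) else 0) := by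
    simp_rw [hY, Finset.mul_sum]
    rw [Finset.sum_comm]
    refine Finset.sum_congr rfl fun i _ => Finset.sum_congr rfl fun x _ => ?_
    ring
  have hW : ∑ i, |fourierCoeff f {i}| = (∑ x, f x * Y x) / 2 ^ n := by
    rw [h3, Finset.sum_div]
    refine Finset.sum_congr rfl fun i _ => ?_
    rw [habs, fourierCoeff_singleton, sum_f_sgn_eq hF f hconst i]
    ring
  have hCS : (∑ x, f x * Y x) ^ 2 ≤ (∑ x, f x ^ 2) * ∑ x, Y x ^ 2 :=
    Finset.sum_mul_sq_le_sq_mul_sq Finset.univ f Y
  have hf2 : ∑ x, f x ^ 2 ≤ 2 ^ n := by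
    have h4 : ∑ x : Fin n → ℤˣ, f x ^ 2 ≤ ∑ _x : Fin n → ℤˣ, (1 : ℝ) := by
      refine Finset.sum_le_sum fun x _ => ?_
      have h5 := abs_le.1 (hf x)
      nlinarith [h5.1, h5.2]
    rw [Finset.sum_const, Finset.card_univ, nsmul_eq_mul, mul_one, card_cube] at h4
    exact h4
  have hY2 : ∑ x, Y x ^ 2 = ∑ x, ((F x).card : ℝ) := by
    simp_rw [hY]
    exact sum_sq_fixed hF e he
  have hK : (0 : ℝ) ≤ ∑ x, ((F x).card : ℝ) := Finset.sum_nonneg fun x _ => Nat.cast_nonneg _
  have hpow : (0 : ℝ) < 2 ^ n := by positivity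
  have hsq : ((∑ x, f x * Y x) / 2 ^ n) ^ 2 ≤ (∑ x, ((F x).card : ℝ)) / 2 ^ n := by
    rw [div_pow, div_le_div_iff₀ (by positivity) hpow]
    have h6 : (∑ x, f x * Y x) ^ 2 ≤ 2 ^ n * ∑ x, ((F x).card : ℝ) := by
      calc (∑ x, f x * Y x) ^ 2 ≤ (∑ x, f x ^ 2) * ∑ x, Y x ^ 2 := hCS
        _ ≤ 2 ^ n * ∑ x, Y x ^ 2 :=
          mul_le_mul_of_nonneg_right hf2 (Finset.sum_nonneg fun x _ => sq_nonneg _)
        _ = 2 ^ n * ∑ x, ((F x).card : ℝ) := by rw [hY2]
    nlinarith [h6, hpow]
  rw [hW]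
  exact le_trans (le_abs_self _) (Real.abs_le_sqrt hsq)

/-- The signed sum of the fixed coordinates has mean zero. -/
lemma sum_fixed_eq_zero {F : (Fin n → ℤˣ) → Finset (Fin n)} (hF : IsSubcubePartition F)
    (e : Fin n → ℝ) :
    ∑ x, ∑ k, (if k ∈ F x then (1 : ℝ) else 0) * (e k * sgn x k) = 0 := by
  rw [Finset.sum_comm]
  refine Finset.sum_eq_zero fun k _ => ?_
  have hA : ∑ x : Fin n → ℤˣ, sgn x k = 0 := by
    refine sum_eq_zero_of_flip_neg k _ fun x => ?_
    rw [sgn_flip, if_pos rfl]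
  have hB : ∑ x, sgn x k * (if k ∈ F x then (0 : ℝ) else 1) = 0 := by
    refine sum_eq_zero_of_flip_neg k _ fun x => ?_
    rw [sgn_flip, if_pos rfl]
    by_cases hk : k ∈ F x
    · rw [if_pos hk, if_pos ((mem_F_flip hF k x).2 hk)]
      ring
    · rw [F_flip_of_notMem hF k x hk]
      ring
  have hsplit : ∑ x, (if k ∈ F x then (1 : ℝ) else 0) * (e k * sgn x k)
      = e k * (∑ x : Fin n → ℤˣ, sgn x k
        - ∑ x, sgn x k * (if k ∈ F x then (0 : ℝ) else 1)) := by
    rw [← Finset.sum_sub_distrib, Finset.mul_sum]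
    refine Finset.sum_congr rfl fun x _ => ?_
    split_ifs <;> ring
  rw [hsplit, hA, hB]
  ring

/-- **Subcube partition bound, variance form.**  If `F` describes a partition of the cube into
subcubes and the real function `f` is constant on every part, then for every real `m` the sum of
the absolute values of the level-one Fourier coefficients of `f` is at most the square root of
(the average of `(f - m)^2`) times (the average number of fixed coordinates). -/
theorem subcube_partition_bound_var (F : (Fin n → ℤˣ) → Finset (Fin n))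
    (hF : IsSubcubePartition F) (f : (Fin n → ℤˣ) → ℝ)
    (hconst : ∀ x y : Fin n → ℤˣ, (∀ i ∈ F x, y i = x i) → f y = f x) (m : ℝ) :
    ∑ i, |fourierCoeff f {i}|
      ≤ Real.sqrt (((∑ x, (f x - m) ^ 2) / 2 ^ n) * ((∑ x, ((F x).card : ℝ)) / 2 ^ n)) := by
  obtain ⟨e, he_def⟩ : ∃ e : Fin n → ℝ, ∀ i, e i = if fourierCoeff f {i} < 0 then -1 else 1 :=
    ⟨_, fun _ => rfl⟩
  have he : ∀ i, e i * e i = 1 := by
    intro i
    rw [he_def]
    split_ifs <;> norm_num
  have habs : ∀ i, |fourierCoeff f {i}| = e i * fourierCoeff f {i} := by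
    intro i
    rw [he_def]
    split_ifs with h
    · rw [abs_of_neg h]
      ring
    · rw [abs_of_nonneg (not_lt.1 h)]
      ring
  obtain ⟨Y, hY⟩ : ∃ Y : (Fin n → ℤˣ) → ℝ,
      ∀ x, Y x = ∑ k, (if k ∈ F x then (1 : ℝ) else 0) * (e k * sgn x k) := ⟨_, fun _ => rfl⟩
  have h3 : ∑ x, f x * Y x
      = ∑ i, e i * ∑ x, f x * sgn x i * (if i ∈ F x then (1 : ℝ) else 0) := by
    simp_rw [hY, Finset.mul_sum]
    rw [Finset.sum_comm]
    refine Finset.sum_congr rfl fun i _ => Finset.sum_congr rfl fun x _ => ?_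
    ring
  have hW : ∑ i, |fourierCoeff f {i}| = (∑ x, f x * Y x) / 2 ^ n := by
    rw [h3, Finset.sum_div]
    refine Finset.sum_congr rfl fun i _ => ?_
    rw [habs, fourierCoeff_singleton, sum_f_sgn_eq hF f hconst i]
    ring
  have hY0 : ∑ x, Y x = 0 := by
    simp_rw [hY]
    exact sum_fixed_eq_zero hF e
  have hshift : ∑ x, f x * Y x = ∑ x, (f x - m) * Y x := by
    have h7 : ∑ x, (f x - m) * Y x = ∑ x, f x * Y x - m * ∑ x, Y x := by
      rw [Finset.mul_sum, ← Finset.sum_sub_distrib]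
      refine Finset.sum_congr rfl fun x _ => ?_
      ring
    rw [h7, hY0]
    ring
  have hCS : (∑ x, (f x - m) * Y x) ^ 2 ≤ (∑ x, (f x - m) ^ 2) * ∑ x, Y x ^ 2 :=
    Finset.sum_mul_sq_le_sq_mul_sq Finset.univ (fun x => f x - m) Y
  have hY2 : ∑ x, Y x ^ 2 = ∑ x, ((F x).card : ℝ) := by
    simp_rw [hY]
    exact sum_sq_fixed hF e he
  have hpow : (0 : ℝ) < 2 ^ n := by positivity
  have hsq : ((∑ x, f x * Y x) / 2 ^ n) ^ 2
      ≤ ((∑ x, (f x - m) ^ 2) / 2 ^ n) * ((∑ x, ((F x).card : ℝ)) / 2 ^ n) := by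
    rw [hshift, div_pow, div_mul_div_comm, ← hY2, ← sq]
    exact div_le_div_of_nonneg_right hCS (by positivity)
  rw [hW]
  exact le_trans (le_abs_self _) (Real.abs_le_sqrt hsq)

/-- **Subcube partition bound, worst-case form.**  If every part of the subcube partition fixes at
most `d` coordinates, the level-one sum is at most `√d`. -/
theorem subcube_partition_bound_max (F : (Fin n → ℤˣ) → Finset (Fin n))
    (hF : IsSubcubePartition F) (f : (Fin n → ℤˣ) → ℝ) (hf : ∀ x, |f x| ≤ 1)
    (hconst : ∀ x y : Fin n → ℤˣ, (∀ i ∈ F x, y i = x i) → f y = f x)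
    (d : ℕ) (hd : ∀ x, (F x).card ≤ d) :
    ∑ i, |fourierCoeff f {i}| ≤ Real.sqrt d := by
  refine le_trans (subcube_partition_bound F hF f hf hconst) (Real.sqrt_le_sqrt ?_)
  rw [div_le_iff₀ (by positivity)]
  calc ∑ x, ((F x).card : ℝ) ≤ ∑ _x : Fin n → ℤˣ, (d : ℝ) :=
        Finset.sum_le_sum fun x _ => by exact_mod_cast hd x
    _ = d * 2 ^ n := by
        rw [Finset.sum_const, Finset.card_univ, nsmul_eq_mul, card_cube]
        ring

end Vale.Agent.Lib.P047.helper64
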